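import Vale.Agent.P146.Gap.Vary

/-!
P146: the nested potentials as families, with the levels of variance zero removed.
-/

namespace Vale.Agent.P146.Gap

open MeasureTheory ProbabilityTheory Set Filter
open Vale.Agent.P157.Low Vale.Agent.P166F

variable {r : ℕ} {m d : Fin (r + 1) → ℝ}

/-- One level of constant variance. -/
noncomputable def stepC (F : Fam) {e : ℝ} (he : 0 ≤ e) (v : ℝ) : Fam :=
  F.step he (d := fun _ => v) (δ := 0) continuous_const (fun s _ => hasDerivAt_const s v) (.inl rfl)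

/-- The potentials of the innermost levels. -/
noncomputable def fam (m d : Fin (r + 1) → ℝ) (hm : ∀ l, 0 ≤ m l) : ℕ → Fam
  | 0 => Fam.spin
  | k + 1 =>
    if h : k ≤ r then stepC (fam m d hm k) (hm ⟨r - k, by omega⟩) (d ⟨r - k, by omega⟩)
    else fam m d hm k

variable (hm : ∀ l, 0 ≤ m l)

lemma fam_U : ∀ (k : ℕ) (t : ℝ), (fam m d hm k).U t = potUp m d lcosh k ∧
    (fam m d hm k).U1 t = insUp m d lcosh Real.tanh k
  | 0, _ => ⟨rfl, rfl⟩
  | k + 1, t => by
    obtain ⟨h1, h2⟩ := fam_U k t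
    by_cases hk : k ≤ r
    · constructor <;> funext y <;>
        simp [fam, hk, stepC, Fam.step, potUp, insUp, potStep, insStep, h1, h2]
    · simp [fam, hk, potUp, insUp, h1, h2]

lemma flat_step {k : ℕ} (hk : k ≤ r) (hd : d ⟨r - k, by omega⟩ = 0) :
    potUp m d lcosh (k + 1) = potUp m d lcosh k ∧
      insUp m d lcosh Real.tanh (k + 1) = insUp m d lcosh Real.tanh k ∧
      (∀ t y, (fam m d hm (k + 1)).U2 t y = (fam m d hm k).U2 t y) ∧
      ∀ i : Fin (r + 1), gUp m d (k + 1) i =
        if (i : ℕ) = r - k then (fun y => insUp m d lcosh Real.tanh k y ^ 2) else gUp m d k i := by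
  obtain ⟨hU, hU1⟩ := fam_U (d := d) hm k 0
  obtain ⟨hU', hU1'⟩ := fam_U (d := d) hm (k + 1) 0
  simp only [fam, hk, dite_true, stepC, Fam.step, hd, potStep_zero_var, insStep_zero_var] at hU' hU1'
  refine ⟨hU'.symm.trans hU, hU1'.symm.trans hU1, fun t y => ?_, fun i => ?_⟩
  · simp only [fam, hk, dite_true, stepC, Fam.step, hd, insStep_zero_var, Fam.th2]
    ring
  · simp only [gUp, hk, dite_true, hd, insStep_zero_var]

include hm in
/-- Levels of variance zero do nothing. -/
lemma flat {a b : ℕ} (hab : a ≤ b) (hb : b ≤ r + 1)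
    (hd : ∀ l : Fin (r + 1), r + 1 - b ≤ (l : ℕ) → (l : ℕ) < r + 1 - a → d l = 0) :
    potUp m d lcosh b = potUp m d lcosh a ∧
      insUp m d lcosh Real.tanh b = insUp m d lcosh Real.tanh a ∧
      (∀ t y, (fam m d hm b).U2 t y = (fam m d hm a).U2 t y) ∧
      ∀ i : Fin (r + 1), ((i : ℕ) < r + 1 - b ∨ r + 1 - a ≤ (i : ℕ)) → gUp m d b i = gUp m d a i := by
  induction b, hab using Nat.le_induction with
  | base => exact ⟨rfl, rfl, fun _ _ => rfl, fun _ _ => rfl⟩
  | succ b hab ih =>
    obtain ⟨i1, i2, i3, i4⟩ := ih (by omega) fun l h1 h2 => hd l (by omega) h2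
    obtain ⟨s1, s2, s3, s4⟩ := flat_step hm (show b ≤ r by omega)
      (hd ⟨r - b, by omega⟩ (by simp only; omega) (by simp only; omega))
    refine ⟨s1.trans i1, s2.trans i2, fun t y => (s3 t y).trans (i3 t y), fun i hi => ?_⟩
    rw [s4, if_neg (by omega)]
    exact i4 i (by omega)

lemma odd_zero (F : Fam) (t : ℝ) : F.U1 t 0 = 0 := by
  have h1 : HasDerivAt (fun x => F.U t (-x)) (-(F.U1 t 0)) 0 := by
    have h := HasDerivAt.scomp (0 : ℝ) (show HasDerivAt (F.U t) (F.U1 t 0) (-0) by
      simpa using F.d1 t 0) (hasDerivAt_neg 0)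
    simpa [Function.comp_def] using h
  rw [funext (F.even t)] at h1
  have := h1.unique (F.d1 t 0)
  linarith

include hm in
/-- The levels below `i` having no variance, level `i` is the root. -/
theorem root {a : Fin (r + 1) → ℝ} (i : Fin (r + 1)) (ha : ∀ l, 0 ≤ incr a l)
    (hlow : ∀ l < i, incr a l = 0) :
    let F := fam m (incr a) hm (r - i)
    xbar m a = potStep (m i) (incr a i) (F.U 0) 0 - a (Fin.last r) / 2 ∧
      slopeSq m a i = insStep (m i) (incr a i) (F.U 0) (fun x => F.U1 0 x ^ 2) 0 ∧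
      (1 - ∑ l, lmass m l * slopeSq m a l) = insStep (m i) (incr a i) (F.U 0) (F.th2 (m i) 0) 0 ∧
      ∀ l, i < l → (∀ j, i < j → j ≤ l → incr a j = 0) → slopeSq m a l = slopeSq m a i := by
  intro F
  set d := incr a
  have hi : (i : ℕ) ≤ r := Nat.le_of_lt_succ i.2
  obtain ⟨hU, hU1⟩ := fam_U (d := d) hm (r - i) 0
  obtain ⟨f1, f2, f3, f4⟩ := flat (d := d) hm (show r - i + 1 ≤ r + 1 by omega) le_rfl
    fun l _ h2 => hlow l (Fin.lt_def.2 (by omega))
  have hidx : (⟨r - (r - i), by omega⟩ : Fin (r + 1)) = i := Fin.ext (by simp only; omega)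
  have hk : r - (i : ℕ) ≤ r := Nat.sub_le _ _
  obtain ⟨hU', hU1'⟩ := fam_U (d := d) hm (r - i + 1) 0
  simp only [fam, hk, dite_true, stepC, Fam.step, hidx] at hU' hU1'
  have hFU : F.U 0 = potUp m d lcosh (r - i) := hU
  have hFU1 : F.U1 0 = insUp m d lcosh Real.tanh (r - i) := hU1
  have hg : gUp m d (r + 1) i =
      insStep (m i) (d i) (F.U 0) (fun x => F.U1 0 x ^ 2) := by
    rw [f4 i (.inr (by omega))]
    rw [hFU, hFU1]
    simp only [gUp, hk, dite_true, hidx]
    rw [if_pos (by omega)]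
  refine ⟨?_, ?_, ?_, fun l hl hz => ?_⟩
  · show potUp m d lcosh (r + 1) 0 - _ = _
    rw [f1, ← hU']
  · show gUp m d (r + 1) i 0 = _
    rw [hg]
  · obtain ⟨S⟩ := exists_stage' (Seg.still hm ha) (r + 1) le_rfl
    have hS1 : S.F.U1 0 = (fam m d hm (r + 1)).U1 0 := by
      rw [S.hU1, (fam_U (d := d) hm (r + 1) 0).2, dT_zero ha]
    have hS2 : S.F.U2 0 0 = (fam m d hm (r + 1)).U2 0 0 :=
      (hS1 ▸ S.F.d2 0 0).unique ((fam m d hm (r + 1)).d2 0 0)
    have hc := S.curv 0 0
    rw [odd_zero, hS2, f3, dT_zero ha] at hc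
    simp only [fam, hk, dite_true, stepC, Fam.step, hidx] at hc
    have h0 : insStep (m i) (d i) (F.U 0) (F.U1 0) 0 = 0 := odd_zero (stepC F (hm i) (d i)) 0
    change 1 - ∑ l, lmass m l * gUp m d (r + 1) l 0 = _
    rw [← hc, h0]
    ring
  · show gUp m d (r + 1) l 0 = gUp m d (r + 1) i 0
    have hl' : (l : ℕ) ≤ r := Nat.le_of_lt_succ l.2
    have hil : (i : ℕ) < l := hl
    obtain ⟨-, g2, -, -⟩ := flat (d := d) hm (show r - (l : ℕ) ≤ r - i by omega) (by omega)
      fun j h1 h2 => hz j (Fin.lt_def.2 (by omega)) (Fin.le_def.2 (by omega))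
    obtain ⟨-, -, -, g4⟩ := flat (d := d) hm (show r - (l : ℕ) + 1 ≤ r - i by omega) (by omega)
      fun j h1 h2 => hz j (Fin.lt_def.2 (by omega)) (Fin.le_def.2 (by omega))
    obtain ⟨-, -, -, s4⟩ := flat_step hm (show r - (l : ℕ) ≤ r by omega)
      (hz ⟨r - (r - l), by omega⟩ (Fin.lt_def.2 (by simp only; omega))
        (Fin.le_def.2 (by simp only; omega)))
    rw [hg, f4 l (.inr (by omega))]
    have e1 : gUp m d (r - i) l = fun y => F.U1 0 y ^ 2 := by
      rw [g4 l (.inr (by omega)), s4, if_pos (by omega), ← g2, hFU1]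
    simp only [gUp, hk, dite_true, hidx, e1, ← hFU]
    rw [if_neg (by omega)]

/-- The innermost potentials change little with the exponents. -/
theorem potUp_lip {e : Fin (r + 1) → ℝ} (he : ∀ l, 0 ≤ e l) {M : ℝ} (hM : ∀ l, 0 ≤ d l ∧ d l ≤ M)
    (hm : ∀ l, 0 ≤ m l) : ∀ k, k ≤ r + 1 → ∀ y,
    |potUp m d lcosh k y - potUp e d lcosh k y| ≤ k * (M / 2) * ∑ l, |m l - e l|
  | 0, _, y => by simp [potUp]
  | k + 1, hk, y => by
    have ih := potUp_lip he hM hm k (by omega)
    set j : Fin (r + 1) := ⟨r - k, by omega⟩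
    set c := (k : ℝ) * (M / 2) * ∑ l, |m l - e l|
    have hM0 : 0 ≤ M := (hM j).1.trans (hM j).2
    obtain ⟨hU, -⟩ := fam_U (d := d) hm k 0
    obtain ⟨hV, -⟩ := fam_U (d := d) he k 0
    have h1 := abs_potStep_sub_le (fam m d hm k) (hm j) (he j) (hM j).1 y
    rw [hU] at h1
    have pU : P166F.Pot (potUp m d lcosh k) := hU ▸ (fam m d hm k).pot 0
    have pV : P166F.Pot (potUp e d lcosh k) := hV ▸ (fam e d he k).pot 0
    have h2 : |potStep (e j) (d j) (potUp m d lcosh k) y -
        potStep (e j) (d j) (potUp e d lcosh k) y| ≤ c := by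
      set U := potUp m d lcosh k
      set V := potUp e d lcosh k
      rcases (he j).eq_or_lt with h0 | h0
      · simp only [potStep, ← h0, if_pos, heat]
        have iU : Integrable (fun z => U (y + Real.sqrt (d j) * z)) (gaussianReal 0 1) :=
          ((fam m d hm k).gb_U.int 0 y (Real.sqrt (d j))).congr (Eventually.of_forall fun z => congrFun hU _)
        have iV : Integrable (fun z => V (y + Real.sqrt (d j) * z)) (gaussianReal 0 1) :=
          ((fam e d he k).gb_U.int 0 y (Real.sqrt (d j))).congr (Eventually.of_forall fun z => congrFun hV _)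
        rw [← integral_sub iU iV]
        refine (abs_integral_le_integral_abs).trans ((integral_mono (iU.sub iV).abs
          (integrable_const c) fun z => ih _).trans_eq ?_)
        simp
      · have hb : ∀ {P Q : ℝ → ℝ}, P166F.Pot P → P166F.Pot Q → (∀ x, P x ≤ c + Q x) →
            potStep (e j) (d j) P y ≤ c + potStep (e j) (d j) Q y := by
          intro P Q hP hQ hPQ
          simp only [potStep, h0.ne', if_false]
          have hle : heat (fun x => Real.exp (e j * P x)) (d j) y ≤
              Real.exp (e j * c) * heat (fun x => Real.exp (e j * Q x)) (d j) y := by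
            simp only [heat]
            rw [← integral_const_mul]
            refine integral_mono (hP.int_exp (he j) y _) ((hQ.int_exp (he j) y _).const_mul _)
              fun z => ?_
            rw [← Real.exp_add, ← mul_add]
            exact Real.exp_le_exp.2 (mul_le_mul_of_nonneg_left (hPQ _) (he j))
          have hlog := Real.log_le_log (hP.pos (he j) _ _) hle
          rw [Real.log_mul (Real.exp_pos _).ne' (hQ.pos (he j) _ _).ne', Real.log_exp] at hlog
          rw [div_le_iff₀ h0, add_mul, div_mul_cancel₀ _ h0.ne']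
          linarith
        have a1 := hb pU pV fun x => by linarith [(abs_le.1 (ih x)).2]
        have a2 := hb pV pU fun x => by linarith [(abs_le.1 (ih x)).1]
        exact abs_le.2 ⟨by linarith, by linarith⟩
    have es : ∀ e' : Fin (r + 1) → ℝ, potUp e' d lcosh (k + 1) =
        potStep (e' j) (d j) (potUp e' d lcosh k) := fun e' => by
      funext x
      simp [potUp, show k ≤ r by omega, potStep, j]
    rw [es, es]
    refine (abs_sub_le _ (potStep (e j) (d j) (potUp m d lcosh k) y) _).trans ?_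
    have hj : |m j - e j| ≤ ∑ l, |m l - e l| :=
      Finset.single_le_sum (fun l _ => abs_nonneg (m l - e l)) (Finset.mem_univ j)
    have : d j / 2 * |m j - e j| ≤ M / 2 * ∑ l, |m l - e l| :=
      mul_le_mul (by linarith [(hM j).2]) hj (abs_nonneg _) (by linarith)
    push_cast
    simp only [c] at h2
    linarith

end Vale.Agent.P146.Gap
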