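import Vale.Agent.P146.Gap.Moments
import Vale.Agent.P166F.Ent

/-!
P146: one level of the spin recursion keeps the slope concave on the half-line.
-/

namespace Vale.Agent.P146.Gap

open MeasureTheory ProbabilityTheory Set Filter
open Vale.Agent.P157 Vale.Agent.P157.Low Vale.Agent.P166F Vale.Agent.P166N

variable {F : Fam} {m v : ℝ} {t : ℝ}

lemma fam_U1_neg (F : Fam) (t x : ℝ) : F.U1 t (-x) = -F.U1 t x := by
  have h := (F.d1 t (-x)).comp x (hasDerivAt_neg x)
  rw [show F.U t ∘ Neg.neg = F.U t from funext (F.even t)] at h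
  linarith [h.unique (F.d1 t x)]

lemma fam_U2_neg (F : Fam) (t x : ℝ) : F.U2 t (-x) = F.U2 t x := by
  have h := (F.d2 t (-x)).comp x (hasDerivAt_neg x)
  have e : F.U1 t ∘ Neg.neg = fun y => -F.U1 t y := funext (fam_U1_neg F t)
  rw [e] at h
  linarith [h.unique (F.d2 t x).fun_neg]

/-- The potential of the tilted Gaussian behind one level. -/
lemma ghs_level (hm : 0 ≤ m) {c : ℝ} (h : AntitoneOn (F.U2 t) (Ici 0)) :
    GHS (fun z => m * F.U t (c * z)) (fun z => m * c * F.U1 t (c * z))
      (fun z => m * c ^ 2 * F.U2 t (c * z)) where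
  d1 z := (((F.d1 t _).comp z ((hasDerivAt_id' z).const_mul c)).const_mul m).congr_deriv (by ring)
  d2 z := (((F.d2 t _).comp z ((hasDerivAt_id' z).const_mul c)).const_mul (m * c)).congr_deriv (by ring)
  even z := by simp only [mul_neg, F.even]
  growth := ⟨m * |F.U t 0|, m * |c|, by positivity, fun z => by
    have h0 := abs_le.1 (F.lip t 0 (c * z))
    rw [sub_zero, abs_mul] at h0
    rw [mul_assoc, ← mul_add]
    exact mul_le_mul_of_nonneg_left (by linarith [le_abs_self (F.U t 0), h0.2]) hm⟩
  even2 z := by simp only [mul_neg, fam_U2_neg]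
  anti z hz w hw hzw := by
    have e : ∀ x : ℝ, F.U2 t x = F.U2 t |x| := fun x => by
      rcases abs_choice x with hx | hx <;> rw [hx]
      rw [fam_U2_neg]
    dsimp only
    rw [e (c * z), e (c * w)]
    refine mul_le_mul_of_nonneg_left (h (abs_nonneg (c * z)) (abs_nonneg (c * w)) ?_) (by positivity)
    rw [abs_mul, abs_mul, abs_of_nonneg (show (0 : ℝ) ≤ z from hz),
      abs_of_nonneg (show (0 : ℝ) ≤ w from hw)]
    exact mul_le_mul_of_nonneg_left hzw (abs_nonneg c)

/-- The curvature of one level over a spin family is decreasing on the half-line. -/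
theorem antitone_step (F : Fam) (hm : 0 ≤ m) (hv : 0 ≤ v) (h : AntitoneOn (F.U2 t) (Ici 0)) :
    AntitoneOn (fun y => insStep m v (F.U t) (F.th2 m t) y -
      m * insStep m v (F.U t) (F.U1 t) y ^ 2) (Ici 0) := by
  rcases eq_or_lt_of_le hv with rfl | hv
  · refine h.congr fun y _ => ?_
    simp only [insStep, heat, Real.sqrt_zero, zero_mul, add_zero, integral_const, probReal_univ,
      one_smul, Fam.th2]
    rw [mul_div_cancel_left₀ _ (Real.exp_pos _).ne', mul_div_cancel_left₀ _ (Real.exp_pos _).ne']
    ring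
  rcases eq_or_lt_of_le hm with rfl | hm0
  · obtain ⟨B, hB⟩ := F.bdd
    intro y hy y' hy' hyy
    have hU2 : ∀ x, |-F.U2 t x| ≤ B := fun x => by
      rw [abs_neg, abs_of_nonneg (F.nn t x)]; exact (hB t x).1
    have hi : EInc fun x => -F.U2 t x := fun a b hab => by
      have e : ∀ x : ℝ, F.U2 t x = F.U2 t |x| := fun x => by
        rcases abs_choice x with hx | hx <;> rw [hx]
        rw [fam_U2_neg]
      simp only [e a, e b]
      exact neg_le_neg (h (abs_nonneg a) (abs_nonneg b) hab)
    have hmeas : Measurable fun x => -F.U2 t x :=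
      (F.cont2.comp (by fun_prop : Continuous fun x : ℝ => (t, x))).measurable.neg
    have key := Chain.tilt_le_even (m := 0) (m' := 0) Chain.nice_logCosh.lip Chain.nice_logCosh.lip
      Chain.nice_logCosh.evn Chain.nice_logCosh.evn (fun _ _ _ => by simp) hmeas hmeas hU2 hU2 hi hi.even
      (fun _ => le_rfl) v (y := y) (y' := y') (abs_le_abs_of_nonneg hy hyy)
    simp only [Chain.ltilt_eq, insStep_zero, heat, Fam.th2, zero_mul, Real.exp_zero, one_mul,
      add_zero, sub_zero, integral_const, probReal_univ, one_smul, div_one, integral_neg,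
      neg_le_neg_iff] at key ⊢
    exact key
  set c := Real.sqrt v with hc
  have hc0 : 0 < c := Real.sqrt_pos.2 hv
  set hh := fun z => m * F.U t (c * z)
  have hG : GHS hh _ _ := ghs_level hm (c := c) h
  -- the normalising average in the tilted parameter
  have hH : ∀ y, heat (fun x => Real.exp (m * F.U t x)) v y =
      Real.exp (-((y / c) ^ 2 / 2)) * ((Real.sqrt (2 * Real.pi))⁻¹ * mom hh 0 (y / c)) := fun y => by
    have e := Chain.shift_eq (fun x => Real.exp (m * F.U t x)) hc0.ne' y
    simp only [heat, ← hc]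
    rw [e, integral_gaussianReal_eq_integral_smul one_ne_zero, mom]
    congr 1
    rw [← integral_const_mul]
    refine integral_congr_ae (Eventually.of_forall fun z => ?_)
    simp only [gaussianPDFReal, smul_eq_mul, NNReal.coe_one, sub_zero, mul_one, tw, hh, pow_zero,
      one_mul, Real.exp_add]
    ring
  set K := (Real.sqrt (2 * Real.pi))⁻¹
  have hK : 0 < K := by positivity
  have hdy : ∀ y, HasDerivAt (fun y => y / c) (1 / c) y := fun y => (hasDerivAt_id' y).div_const c
  have hU1 : ∀ y, m * insStep m v (F.U t) (F.U1 t) y = (tmean hh (y / c) - y / c) / c := fun y => by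
    have d1 := F.deriv_wgt hm t v y
    have d0 : HasDerivAt (fun y => mom hh 0 (y / c)) (mom hh 1 (y / c) * (1 / c)) y :=
      ((hG.deriv_mom 0 (y / c)).comp y (hdy y) :)
    have d2 : HasDerivAt (fun y => Real.exp (-((y / c) ^ 2 / 2)) * (K * mom hh 0 (y / c))) _ y :=
      ((((hdy y).fun_pow 2).div_const 2).fun_neg.exp).fun_mul (d0.const_mul K)
    rw [show heat (fun x => Real.exp (m * F.U t x)) v = _ from funext hH] at d1
    have hd := d1.unique d2
    have p := (hG.mom_pos (y / c)).ne'
    rw [insStep, hH, ← mul_div_assoc, hd, tmean]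
    simp only [Nat.cast_ofNat, Nat.add_one_sub_one, pow_one]
    field_simp
    ring
  have hU2 : ∀ y, m * (insStep m v (F.U t) (F.th2 m t) y - m * insStep m v (F.U t) (F.U1 t) y ^ 2) =
      (tvar hh (y / c) - 1) / c ^ 2 := fun y => by
    have d1 := (F.deriv_ins hm t v y).const_mul m
    rw [show (fun y => m * insStep m v (F.U t) (F.U1 t) y) = fun y => (tmean hh (y / c) - y / c) / c from
      funext hU1] at d1
    have d0 : HasDerivAt (fun y => tmean hh (y / c)) (tvar hh (y / c) * (1 / c)) y :=
      ((hG.deriv_mean (y / c)).comp y (hdy y) :)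
    have d2 : HasDerivAt (fun y => (tmean hh (y / c) - y / c) / c) _ y :=
      (d0.fun_sub (hdy y)).div_const c
    rw [d1.unique d2]
    ring
  intro y hy y' hy' hyy
  have hy0 : (0 : ℝ) ≤ y / c := div_nonneg hy hc0.le
  have hle := hG.var_anti (show y / c ∈ Ici (0 : ℝ) from hy0)
    (show y' / c ∈ Ici (0 : ℝ) from div_nonneg hy' hc0.le) (div_le_div_of_nonneg_right hyy hc0.le)
  refine le_of_mul_le_mul_left ?_ hm0
  rw [hU2, hU2]
  exact div_le_div_of_nonneg_right (by linarith) (by positivity)

/-- The curvature of the spin. -/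
theorem antitone_spin (t : ℝ) : AntitoneOn (Fam.spin.U2 t) (Ici 0) := fun x hx y _ hxy => by
  have h1 := Chain.tanh_mono hxy
  have h2 := Chain.tanh_nonneg' (show (0 : ℝ) ≤ x from hx)
  show 1 - Real.tanh y ^ 2 ≤ 1 - Real.tanh x ^ 2
  nlinarith

end Vale.Agent.P146.Gap
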