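import Vale.Agent.P146.Gap.Level

/-!
P146: below an atom where the mean squared slope meets the line through the origin, it stays strictly
below that line, provided the root curvature is small.
-/

namespace Vale.Agent.P146.Gap

open MeasureTheory ProbabilityTheory Set Filter
open Vale.Agent.P157 Vale.Agent.P157.Low Vale.Agent.P166F Vale.Agent.P166N

variable {F : Fam} {m a e : ℝ} {θ : ℝ → ℝ}

/-- A family after one level of constant variance. -/
noncomputable def lev (F : Fam) (hm : 0 ≤ m) (e : ℝ) : Fam :=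
  F.step hm (d := fun _ => e) (δ := 0) continuous_const (fun s _ => hasDerivAt_const s e) (Or.inl rfl)

lemma lev_U (F : Fam) (hm : 0 ≤ m) (e : ℝ) : (lev F hm e).U 0 = potStep m e (F.U 0) := rfl

lemma lev_U1 (F : Fam) (hm : 0 ≤ m) (e : ℝ) : (lev F hm e).U1 0 = insStep m e (F.U 0) (F.U1 0) := rfl

lemma lev_U2 (F : Fam) (hm : 0 ≤ m) (e y : ℝ) : (lev F hm e).U2 0 y =
    insStep m e (F.U 0) (F.th2 m 0) y - m * insStep m e (F.U 0) (F.U1 0) y ^ 2 := rfl

lemma fam_lip (F : Fam) : RSB.Lip 1 (F.U 0) := Low.lip_of_hasDerivAt (F.d1 0) (F.one 0)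

lemma merge_pot (F : Fam) (hm : 0 ≤ m) (ha : 0 ≤ a) (he : 0 ≤ e) :
    potStep m a (potStep m e (F.U 0)) = potStep m (a + e) (F.U 0) := by
  have hL : RSB.Lip 1 fun x => F.U 0 x + 0 := by simpa using fam_lip F
  have e1 : ∀ d, Chain.lstep m d (F.U 0) = potStep m d (F.U 0) := fun d => by
    simpa using lstep_eq_potStep hL m d
  have hL' : RSB.Lip 1 fun x => potStep m e (F.U 0) x + 0 := by
    simpa [e1] using Chain.lip_lstep (fam_lip F) hm e
  have e2 : Chain.lstep m a (potStep m e (F.U 0)) = potStep m a (potStep m e (F.U 0)) := by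
    simpa using lstep_eq_potStep hL' m a
  rw [← e2, ← e1, ← e1]
  exact funext fun x => Chain.lstep_merge (fam_lip F) hm ha he x

lemma merge_ins (F : Fam) (_hm : 0 ≤ m) (hθ : Continuous θ) {B : ℝ} (hB : ∀ x, |θ x| ≤ B) (ha : 0 ≤ a)
    (he : 0 ≤ e) :
    insStep m a (potStep m e (F.U 0)) (insStep m e (F.U 0) θ) = insStep m (a + e) (F.U 0) θ := by
  have e3 : ∀ (d : ℝ) (U G : ℝ → ℝ), Chain.ltilt m d U G = insStep m d U G := fun d U G => by
    simpa using ltilt_eq_insStep m d 0 U G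
  have hL : RSB.Lip 1 fun x => F.U 0 x + 0 := by simpa using fam_lip F
  have e1 : Chain.lstep m e (F.U 0) = potStep m e (F.U 0) := by simpa using lstep_eq_potStep hL m e
  rw [← e3, ← e3, ← e3, ← e1]
  exact funext fun x => Chain.ltilt_merge (fam_lip F) hθ.measurable hB ha he m x

lemma lev_merge (F : Fam) (hm : 0 ≤ m) (ha : 0 ≤ a) (he : 0 ≤ e) :
    (lev (lev F hm e) hm a).U1 0 = (lev F hm (a + e)).U1 0 ∧
      (lev (lev F hm e) hm a).U2 0 = (lev F hm (a + e)).U2 0 := by
  have h1 : (lev (lev F hm e) hm a).U1 0 = (lev F hm (a + e)).U1 0 :=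
    merge_ins F hm (fam_slice F).2.1 (F.one 0) ha he
  refine ⟨h1, funext fun x => ?_⟩
  have h := (lev (lev F hm e) hm a).d2 0 x
  rw [h1] at h
  exact h.unique ((lev F hm (a + e)).d2 0 x)

/-- The mean squared slope at variance `a` below the atom at variance `A`. -/
noncomputable def msq (F : Fam) (hm : 0 ≤ m) (A a : ℝ) : ℝ :=
  insStep m a ((lev F hm (A - a)).U 0) (fun x => (lev F hm (A - a)).U1 0 x ^ 2) 0

/-- The mean squared curvature there. -/
noncomputable def mcurv (F : Fam) (hm : 0 ≤ m) (A a : ℝ) : ℝ :=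
  insStep m a ((lev F hm (A - a)).U 0) (fun x => (lev F hm (A - a)).U2 0 x ^ 2) 0

variable {A B : ℝ}

lemma msq_top (F : Fam) (hm : 0 ≤ m) (A : ℝ) :
    msq F hm A A = insStep m A (F.U 0) (fun x => F.U1 0 x ^ 2) 0 := by
  have h1 : (lev F hm (A - A)).U1 0 = F.U1 0 := funext fun y => by
    simp only [lev, Fam.step, sub_self, insStep, heat, Real.sqrt_zero, zero_mul, add_zero, integral_const,
      probReal_univ, one_smul]
    exact mul_div_cancel_left₀ _ (Real.exp_pos _).ne'
  have h0 : (lev F hm (A - A)).U 0 = F.U 0 := funext fun y => by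
    simp only [lev, Fam.step, sub_self, potStep]
    split_ifs with h
    · simp [heat]
    · simp only [heat, Real.sqrt_zero, zero_mul, add_zero, integral_const, probReal_univ, one_smul,
        Real.log_exp]
      field_simp
  rw [msq, h1, h0]

lemma msq_gain (F : Fam) (hm : 0 ≤ m) (hB : ∀ x, F.U2 0 x ≤ B) {b : ℝ} (ha : 0 ≤ a) (hab : a ≤ b)
    (hbA : b ≤ A) :
    msq F hm A a + (b - a) / (1 + (b - a) * m * (B + m + m)) * mcurv F hm A a ≤ msq F hm A b := by
  have hB0 : 0 ≤ B := (F.nn 0 0).trans (hB 0)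
  set H := lev F hm (A - b)
  have hHB : ∀ x, H.U2 0 x ≤ B + m := fun x => by
    have h1 : insStep m (A - b) (F.U 0) (F.th2 m 0) x ≤ B + m :=
      (abs_le.1 (abs_insStep_le (θ := F.th2 m 0) (F.pot 0) hm ((F.cont_th2 m).comp
        (by fun_prop : Continuous fun x : ℝ => ((0 : ℝ), x))) (B := B + m) (fun z => by
          have h0 := mul_nonneg hm (sq_nonneg (F.U1 0 z))
          rw [Fam.th2, abs_of_nonneg (add_nonneg (F.nn 0 z) h0)]
          exact add_le_add (hB z) (mul_le_of_le_one_right hm (F.sq_le_one 0 z))) _ x)).2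
    simp only [H, lev_U2]
    linarith [mul_nonneg hm (sq_nonneg (insStep m (A - b) (F.U 0) (F.U1 0) x))]
  have hG : 0 ≤ A - b := sub_nonneg.2 hbA
  set G := lev H hm (b - a)
  obtain ⟨hG1, hG2⟩ := lev_merge F hm (sub_nonneg.2 hab) hG
  rw [show b - a + (A - b) = A - a by ring] at hG1 hG2
  have hG0 : G.U 0 = (lev F hm (A - a)).U 0 := by
    have := merge_pot F hm (sub_nonneg.2 hab) hG
    rw [show b - a + (A - b) = A - a by ring] at this
    exact this
  obtain ⟨-, hc1, hc2⟩ := fam_slice G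
  obtain ⟨-, hH1, -⟩ := fam_slice H
  obtain ⟨C, hC⟩ := G.bdd
  have hbG : ∀ x, |G.U2 0 x ^ 2| ≤ C ^ 2 := fun x => by
    rw [abs_pow]
    exact pow_le_pow_left₀ (abs_nonneg _) (by rw [abs_of_nonneg (G.nn 0 x)]; exact (hC 0 x).1) 2
  set K := (b - a) / (1 + (b - a) * m * (B + m + m))
  have hs1 : ∀ {P : Fam} (x : ℝ), |P.U1 0 x ^ 2| ≤ 1 := fun {P} x => by
    rw [abs_of_nonneg (sq_nonneg _)]; exact P.sq_le_one 0 x
  set θ' := insStep m (b - a) (H.U 0) fun x => H.U1 0 x ^ 2
  have hθ' : ∀ x, |θ' x| ≤ 1 := fun x => abs_insStep_le (H.pot 0) hm (hH1.pow 2) hs1 _ x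
  have hθc : Continuous θ' := by
    have := H.cont_insStep (d := fun _ => b - a) (θ := fun t x => H.U1 t x ^ 2) (B := 1) hm
      continuous_const (H.cont1.pow 2) fun t x => by
        rw [abs_of_nonneg (sq_nonneg _)]; exact H.sq_le_one t x
    have h := this.comp (Continuous.prodMk continuous_const continuous_id : Continuous fun x : ℝ => ((0 : ℝ), x))
    simp only [Function.comp_def] at h
    exact h
  calc msq F hm A a + K * mcurv F hm A a
      = insStep m a (G.U 0) (fun x => G.U1 0 x ^ 2 + K * G.U2 0 x ^ 2) 0 := by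
        rw [insStep_add_mul (θ := fun x => G.U1 0 x ^ 2) (θ' := fun x => G.U2 0 x ^ 2) (G.pot 0) hm
          (hc1.pow 2) (hc2.pow 2) hs1 hbG, hG0, hG1, hG2]
        rfl
    _ ≤ insStep m a (G.U 0) θ' 0 := by
        have hsum : Continuous fun x => G.U1 0 x ^ 2 + K * G.U2 0 x ^ 2 :=
          (hc1.pow 2).add ((hc2.pow 2).const_mul K)
        refine insStep_le (G.pot 0) hm hsum (B := 1 + |K| * C ^ 2) (B' := 1) (fun x => ?_) hθc hθ'
          (fun x => ?_) a 0
        rotate_left
        · show G.U1 0 x ^ 2 + K * G.U2 0 x ^ 2 ≤ _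
          simp only [G, lev_U1, lev_U2]
          exact level_gain H hm (sub_nonneg.2 hab) hHB x
        refine (abs_add_le _ _).trans (add_le_add (hs1 x) ?_)
        rw [abs_mul]
        exact mul_le_mul_of_nonneg_left (hbG x) (abs_nonneg K)
    _ = msq F hm A b := by
        have h := congr_fun (merge_ins H hm (θ := fun x => H.U1 0 x ^ 2) (hH1.pow 2) hs1 ha
          (sub_nonneg.2 hab)) 0
        rw [add_sub_cancel] at h
        exact h

/-- Below the atom the mean squared slope stays strictly below the line. -/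
theorem core (F : Fam) (hanti : AntitoneOn (F.U2 0) (Set.Ici 0)) {m A : ℝ} (hm : 0 ≤ m) (_hm1 : m ≤ 1)
    (hA : 0 < A)
    (hD : insStep m A (F.U 0) (F.th2 m 0) 0 ^ 2 * A < insStep m A (F.U 0) (fun x => F.U1 0 x ^ 2) 0)
    {a : ℝ} (ha : 0 < a) (haA : a < A) :
    insStep m a (potStep m (A - a) (F.U 0)) (fun x => insStep m (A - a) (F.U 0) (F.U1 0) x ^ 2) 0 * A <
      insStep m A (F.U 0) (fun x => F.U1 0 x ^ 2) 0 * a := by
  change msq F hm A a * A < _
  obtain ⟨B, hB0⟩ := F.bdd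
  have hB : ∀ x, F.U2 0 x ≤ B := fun x => (hB0 0 x).1
  have hBn : 0 ≤ B := (F.nn 0 0).trans (hB 0)
  set D := insStep m A (F.U 0) (F.th2 m 0) 0
  set Q := insStep m A (F.U 0) (fun x => F.U1 0 x ^ 2) 0
  -- the root curvature does not depend on the point
  have hDeq : ∀ b ∈ Ioc 0 A,
      insStep m b ((lev F hm (A - b)).U 0) ((lev F hm (A - b)).th2 m 0) 0 = D := fun b hb => by
    have e : (lev F hm (A - b)).th2 m 0 = insStep m (A - b) (F.U 0) (F.th2 m 0) := funext fun x => by
      simp only [Fam.th2, lev, Fam.step]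
      ring
    rw [e]
    have h := congr_fun (merge_ins F hm (θ := F.th2 m 0)
      ((F.cont_th2 m).comp (by fun_prop : Continuous fun x : ℝ => ((0 : ℝ), x)))
      (F.bdd_th2 hm (fun t x => (hB0 t x).1) 0) hb.1.le (sub_nonneg.2 hb.2)) 0
    rw [add_sub_cancel] at h
    exact h
  have hnn : ∀ b, 0 ≤ mcurv F hm A b := fun b => by
    obtain ⟨-, -, hc2⟩ := fam_slice (lev F hm (A - b))
    obtain ⟨C, hC⟩ := (lev F hm (A - b)).bdd
    have hb2 : ∀ x, |(lev F hm (A - b)).U2 0 x ^ 2| ≤ C ^ 2 := fun x => by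
      rw [abs_pow]
      exact pow_le_pow_left₀ (abs_nonneg _)
        (by rw [abs_of_nonneg ((lev F hm (A - b)).nn 0 x)]; exact (hC 0 x).1) 2
    exact (insStep_const ((lev F hm (A - b)).pot 0) hm b 0 0).ge.trans
      (insStep_le ((lev F hm (A - b)).pot 0) hm continuous_const (fun _ => le_rfl) (hc2.pow 2) hb2
        (fun _ => sq_nonneg _) b 0)
  have hmono : ∀ b c : ℝ, 0 ≤ b → b ≤ c → c ≤ A → msq F hm A b ≤ msq F hm A c := fun b c hb hbc hcA => by
    have h1 := msq_gain F hm hB hb hbc hcA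
    have h2 : 0 ≤ (c - b) / (1 + (c - b) * m * (B + m + m)) * mcurv F hm A b :=
      mul_nonneg (div_nonneg (sub_nonneg.2 hbc) (by
        have := sub_nonneg.2 hbc
        positivity)) (hnn b)
    linarith
  -- above the critical line the ratio increases a little to the right
  have step : ∀ s ∈ Ioo 0 A, D ^ 2 * s < msq F hm A s →
      ∃ s' ∈ Ioc s A, msq F hm A s * s' < msq F hm A s' * s := fun s hs hlt => by
    have hanti' : AntitoneOn ((lev F hm (A - s)).U2 0) (Ici 0) :=
      antitone_step F hm (sub_nonneg.2 hs.2.le) hanti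
    have key : msq F hm A s < s * mcurv F hm A s := gap_level (lev F hm (A - s)) hanti' hm hs.1
      (by rw [hDeq s ⟨hs.1, hs.2.le⟩]; exact hlt)
    set f := msq F hm A s
    set R := mcurv F hm A s
    have hf : 0 < f := (mul_nonneg (sq_nonneg D) hs.1.le).trans_lt hlt
    set M := m * (B + m + m) + 1
    have hM : 0 < M := by positivity
    set ε := min (A - s) ((s * R - f) / (f * M)) with hε
    have hε0 : 0 < ε := lt_min (sub_pos.2 hs.2) (div_pos (sub_pos.2 key) (mul_pos hf hM))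
    have hεA : ε ≤ A - s := min_le_left _ _
    refine ⟨s + ε, ⟨by linarith, by linarith⟩, ?_⟩
    have hg := msq_gain F hm hB hs.1.le (b := s + ε) (le_add_of_nonneg_right hε0.le)
      (show s + ε ≤ A by linarith)
    rw [add_sub_cancel_left] at hg
    have hε2 : ε * (f * M) ≤ s * R - f :=
      (le_div_iff₀ (mul_pos hf hM)).1 (min_le_right (A - s) ((s * R - f) / (f * M)))
    have hden : 0 < 1 + ε * m * (B + m + m) := by positivity
    have h3 : f * (1 + ε * m * (B + m + m)) < s * R := by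
      simp only [M] at hε2
      nlinarith [mul_pos hε0 hf]
    have h4 : f < s * R / (1 + ε * m * (B + m + m)) := (lt_div_iff₀ hden).2 h3
    calc f * (s + ε) = f * s + ε * f := by ring
      _ < f * s + ε * (s * R / (1 + ε * m * (B + m + m))) := by
          linarith [mul_lt_mul_of_pos_left h4 hε0]
      _ = (f + ε / (1 + ε * m * (B + m + m)) * R) * s := by ring
      _ ≤ msq F hm A (s + ε) * s := mul_le_mul_of_nonneg_right hg hs.1.le
  by_contra hge
  rw [not_lt] at hge
  have hA' : msq F hm A A = Q := msq_top F hm A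
  have hda : D ^ 2 * a < msq F hm A a := by
    nlinarith [mul_lt_mul_of_pos_right hD ha]
  obtain ⟨a₁, ha1, h1⟩ := step a ⟨ha, haA⟩ hda
  set c := msq F hm A a₁ / a₁ with hc
  have ha10 : 0 < a₁ := ha.trans ha1.1
  have hcQ : Q < c * A := by
    rw [hc, div_mul_eq_mul_div, lt_div_iff₀ ha10]
    nlinarith [mul_le_mul_of_nonneg_right hge ha10.le, mul_lt_mul_of_pos_left h1 hA]
  set S := {s | s ∈ Icc a₁ A ∧ c * s ≤ msq F hm A s}
  have hne : a₁ ∈ S := ⟨⟨le_rfl, ha1.2⟩, by rw [hc, div_mul_cancel₀ _ ha10.ne']⟩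
  have hbdd : BddAbove S := ⟨A, fun s hs => hs.1.2⟩
  set s := sSup S
  have hs1 : a₁ ≤ s := le_csSup hbdd hne
  have hsA : s ≤ A := csSup_le ⟨_, hne⟩ fun x hx => hx.1.2
  have hcpos : 0 < c := by
    have : 0 < Q := (mul_nonneg (sq_nonneg D) hA.le).trans_lt hD
    by_contra hc0
    nlinarith [not_lt.1 hc0]
  have hsS : c * s ≤ msq F hm A s := by
    rw [← le_div_iff₀' hcpos]
    refine csSup_le ⟨_, hne⟩ fun x hx => ?_
    rw [le_div_iff₀' hcpos]
    exact hx.2.trans (hmono x s (ha10.le.trans hx.1.1) (le_csSup hbdd hx) hsA)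
  rcases hsA.eq_or_lt with hEq | hlt
  · rw [hEq, hA'] at hsS
    linarith
  · have hDc : D ^ 2 < c := by nlinarith
    obtain ⟨s', hs', h2⟩ := step s ⟨ha10.trans_le hs1, hlt⟩
      (lt_of_lt_of_le (mul_lt_mul_of_pos_right hDc (ha10.trans_le hs1)) hsS)
    have hmem : s' ∈ S := by
      refine ⟨⟨hs1.trans hs'.1.le, hs'.2⟩, ?_⟩
      have h5 := mul_le_mul_of_nonneg_right hsS ((ha10.trans_le hs1).trans hs'.1).le
      nlinarith [ha10.trans_le hs1]
    linarith [le_csSup hbdd hmem, hs'.1]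

end Vale.Agent.P146.Gap
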