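import Vale.Agent.P146.Gap.Weight

/-!
P146: the Gaussian spectral gap for odd functions orthogonal to the identity, on the half-line.
-/

namespace Vale.Agent.P146.Gap

open MeasureTheory Set Filter intervalIntegral
open scoped Topology

/-- The Gaussian weight. -/
noncomputable def gw (x : ℝ) : ℝ := Real.exp (-(x ^ 2) / 2)

lemma hasDerivAt_gw (x : ℝ) : HasDerivAt gw (-x * gw x) x := by
  have h : HasDerivAt (fun y : ℝ => -(y ^ 2) / 2) (-x) x := by
    simpa using ((hasDerivAt_pow 2 x).neg.div_const 2).congr_deriv (by ring : _ = -x)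
  exact h.exp.congr_deriv (by simp only [gw]; ring)

lemma continuous_gw : Continuous gw := by unfold gw; fun_prop

lemma wt_none (x : ℝ) : wt (fun _ => 0) x = gw x := by simp [wt, gw]

variable {ψ ψ' : ℝ → ℝ}

/-- The bound on a compact interval away from zero. -/
lemma hardy_interval (hd : ∀ x, HasDerivAt ψ (ψ' x) x) (hc : Continuous ψ') {ε L : ℝ} (hε : 0 < ε)
    (hεL : ε ≤ L) (hs : ε ^ 2 ≤ 3) (hs' : 3 ≤ L ^ 2) :
    ∃ b, |b| ≤ |ψ (Real.sqrt 3)| / Real.sqrt 3 ∧
      3 * (∫ x in ε..L, ψ x ^ 2 * gw x) - 4 * b * (∫ x in ε..L, x * ψ x * gw x) +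
          2 * b ^ 2 * (∫ x in ε..L, x ^ 2 * gw x) - ψ ε ^ 2 * gw ε / ε ≤
        ∫ x in ε..L, ψ' x ^ 2 * gw x := by
  set s := Real.sqrt 3
  have hs0 : 0 < s := Real.sqrt_pos.2 (by norm_num)
  have hss : s ^ 2 = 3 := Real.sq_sqrt (by norm_num)
  have hε' : ε ≤ s := by nlinarith
  have hL' : s ≤ L := by nlinarith
  set h := fun x => ψ x / x
  set b := h s
  refine ⟨b, le_of_eq (by simp only [b, h]; rw [abs_div, abs_of_pos hs0]), ?_⟩
  set h' := fun x => (ψ' x * x - ψ x) / x ^ 2
  have hψ : Continuous ψ := continuous_iff_continuousAt.2 fun x => (hd x).continuousAt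
  have hcg := continuous_gw
  have hh : ∀ x, 0 < x → HasDerivAt h (h' x) x := fun x hx =>
    ((hd x).fun_div (hasDerivAt_id' x) hx.ne').congr_deriv (by simp [h'])
  have hpos : ∀ x ∈ uIcc ε L, 0 < x := fun x hx => by
    rw [uIcc_of_le hεL] at hx; exact hε.trans_le hx.1
  have hint : ∀ {F : ℝ → ℝ}, Continuous F → IntervalIntegrable F volume ε L :=
    fun hF => hF.intervalIntegrable _ _
  -- the primitive of `h' ^ 2 / x` that vanishes at `√3`
  set q := fun x => h' x ^ 2 / (2 * x)
  have hqc : ContinuousOn q (Ioi 0) := by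
    refine ContinuousOn.div ?_ (by fun_prop) fun x hx => mul_ne_zero two_ne_zero (ne_of_gt hx)
    exact (ContinuousOn.div (by fun_prop) (by fun_prop) fun x hx => pow_ne_zero _ (ne_of_gt hx)).pow 2
  have hqi : ∀ {a c : ℝ}, 0 < a → 0 < c → IntervalIntegrable q volume a c := fun {a c} ha hc' =>
    (hqc.mono fun x hx => (lt_min ha hc').trans_le hx.1).intervalIntegrable
  set A := fun x => ∫ t in s..x, q t
  have hA : ∀ x, 0 < x → HasDerivAt A (q x) x := fun x hx =>
    integral_hasDerivAt_right (hqi hs0 hx)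
      (hqc.stronglyMeasurableAtFilter isOpen_Ioi x hx) (hqc.continuousAt (Ioi_mem_nhds hx))
  -- pointwise: `(h - b)² ≤ A (x² - 3)`
  have hpt : ∀ x, 0 < x → (h x - b) ^ 2 ≤ A x * (x ^ 2 - 3) := by
    intro x hx
    have hh' : ∀ y ∈ uIcc s x, HasDerivAt h (h' y) y := fun y hy =>
      hh y ((lt_min hs0 hx).trans_le hy.1)
    have hh'c : ContinuousOn h' (uIcc s x) :=
      ContinuousOn.div (by fun_prop) (by fun_prop) fun y hy =>
        pow_ne_zero _ ((lt_min hs0 hx).trans_le hy.1).ne'
    have e1 : (∫ y in s..x, h' y) = h x - b :=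
      integral_eq_sub_of_hasDerivAt hh' hh'c.intervalIntegrable
    -- Cauchy–Schwarz against the weight `2 y`
    have cs : ∀ lam : ℝ, 0 ≤ (if s ≤ x then (1 : ℝ) else -1) *
        (A x - 2 * lam * (h x - b) + lam ^ 2 * (x ^ 2 - 3)) := by
      intro lam
      have e : A x - 2 * lam * (h x - b) + lam ^ 2 * (x ^ 2 - 3) =
          ∫ y in s..x, (h' y - lam * (2 * y)) ^ 2 / (2 * y) := by
        have e2 : (∫ y in s..x, 2 * y) = x ^ 2 - 3 := by
          rw [intervalIntegral.integral_const_mul, integral_id]; linarith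
        rw [← e1, ← e2, ← intervalIntegral.integral_const_mul, ← intervalIntegral.integral_const_mul]
        simp only [A]
        rw [← integral_sub (hqi hs0 hx) (hh'c.intervalIntegrable.const_mul _),
          ← integral_add ((hqi hs0 hx).sub (hh'c.intervalIntegrable.const_mul _))
            ((Continuous.intervalIntegrable (by fun_prop) _ _).const_mul _)]
        refine integral_congr fun y hy => ?_
        have : y ≠ 0 := ((lt_min hs0 hx).trans_le hy.1).ne'
        simp only [q]
        field_simp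
        ring
      rw [e]
      split_ifs with hsx
      · rw [one_mul]
        exact intervalIntegral.integral_nonneg hsx fun y hy =>
          div_nonneg (sq_nonneg _) (by linarith [hy.1])
      · rw [integral_symm, neg_one_mul, neg_neg]
        exact intervalIntegral.integral_nonneg (le_of_not_ge hsx) fun y hy =>
          div_nonneg (sq_nonneg _) (by linarith [hy.1])
    rcases lt_trichotomy x s with hlt | rfl | hgt
    · have hneg : x ^ 2 - 3 < 0 := by nlinarith
      have := cs ((h x - b) / (x ^ 2 - 3))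
      rw [if_neg (not_le.2 hlt)] at this
      set d := x ^ 2 - 3
      have e : A x - 2 * ((h x - b) / d) * (h x - b) + ((h x - b) / d) ^ 2 * d =
          A x - (h x - b) ^ 2 / d := by field_simp; ring
      rw [e] at this
      have h2 : A x ≤ (h x - b) ^ 2 / d := by linarith
      rw [le_div_iff_of_neg hneg] at h2
      linarith
    · simp [b, A]
    · have hp' : 0 < x ^ 2 - 3 := by nlinarith
      have := cs ((h x - b) / (x ^ 2 - 3))
      rw [if_pos hgt.le, one_mul] at this
      set d := x ^ 2 - 3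
      have e : A x - 2 * ((h x - b) / d) * (h x - b) + ((h x - b) / d) ^ 2 * d =
          A x - (h x - b) ^ 2 / d := by field_simp; ring
      rw [e] at this
      have h2 : (h x - b) ^ 2 / d ≤ A x := by linarith
      rw [div_le_iff₀ hp'] at h2
      linarith
  -- the boundary identity
  set G := fun x => ψ x ^ 2 / x * gw x + 2 * (A x * (x ^ 3 * gw x))
  set dG := fun x => ψ' x ^ 2 * gw x - ψ x ^ 2 * gw x - 2 * (A x * (x ^ 2 * (x ^ 2 - 3))) * gw x
  have hGd : ∀ x ∈ uIcc ε L, HasDerivAt G (dG x) x := by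
    intro x hx
    have hx0 := hpos x hx
    refine ((((hd x).fun_pow 2).fun_div (hasDerivAt_id' x) hx0.ne').fun_mul (hasDerivAt_gw x)
      |>.fun_add (((hA x hx0).fun_mul ((hasDerivAt_pow 3 x).fun_mul (hasDerivAt_gw x))).const_mul
        2)).congr_deriv ?_
    simp only [dG, q, h']
    field_simp
    ring
  have hAc : ContinuousOn A (uIcc ε L) := fun x hx =>
    (hA x (hpos x hx)).continuousAt.continuousWithinAt
  have hdGc : ContinuousOn dG (uIcc ε L) :=
    ((by fun_prop : Continuous fun x => ψ' x ^ 2 * gw x - ψ x ^ 2 * gw x).continuousOn).sub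
      ((continuousOn_const.mul (hAc.mul (by fun_prop))).mul hcg.continuousOn)
  have hG := integral_eq_sub_of_hasDerivAt hGd hdGc.intervalIntegrable
  have hAL : 0 ≤ A L := intervalIntegral.integral_nonneg hL' fun y hy =>
    div_nonneg (sq_nonneg _) (by linarith [hy.1])
  have hAε : A ε ≤ 0 := by
    simp only [A]
    rw [integral_symm, neg_nonpos]
    exact intervalIntegral.integral_nonneg hε' fun y hy =>
      div_nonneg (sq_nonneg _) (by linarith [hy.1])
  have hL0 : 0 < L := hε.trans_le hεL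
  have hGL : 0 ≤ G L := add_nonneg
    (mul_nonneg (div_nonneg (sq_nonneg _) hL0.le) (Real.exp_pos _).le)
    (mul_nonneg zero_le_two (mul_nonneg hAL (mul_nonneg (by positivity) (Real.exp_pos _).le)))
  have hGε : G ε ≤ ψ ε ^ 2 * gw ε / ε := by
    have : A ε * (ε ^ 3 * gw ε) ≤ 0 :=
      mul_nonpos_of_nonpos_of_nonneg hAε (mul_nonneg (by positivity) (Real.exp_pos _).le)
    simp only [G]
    rw [div_mul_eq_mul_div]
    linarith
  have hmono : ∫ x in ε..L, (3 * (ψ x ^ 2 * gw x) - 4 * b * (x * ψ x * gw x) +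
      2 * b ^ 2 * (x ^ 2 * gw x)) + dG x ≤ ∫ x in ε..L, ψ' x ^ 2 * gw x + 0 := by
    refine intervalIntegral.integral_mono_on hεL
      ((hint (by fun_prop)).add hdGc.intervalIntegrable) (hint (by fun_prop)) fun x hx => ?_
    have hx0 : 0 < x := hε.trans_le hx.1
    have hψx : ψ x = x * h x := by simp only [h]; field_simp
    have h2 := mul_le_mul_of_nonneg_left (hpt x hx0)
      (mul_nonneg (sq_nonneg x) (Real.exp_pos (-(x ^ 2) / 2)).le)
    simp only [dG, hψx, gw] at *
    nlinarith
  rw [intervalIntegral.integral_add (hint (by fun_prop)) hdGc.intervalIntegrable,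
    intervalIntegral.integral_add (hint (by fun_prop)) (hint (by fun_prop)),
    intervalIntegral.integral_sub (hint (by fun_prop)) (hint (by fun_prop)), hG] at hmono
  simp only [intervalIntegral.integral_const_mul, add_zero] at hmono
  linarith

/-- The Gaussian gap: three times the mass for odd functions orthogonal to the identity. -/
theorem gauss_gap (hd : ∀ x, HasDerivAt ψ (ψ' x) x) (hg' : EG ψ') (hg : EG ψ) (h0 : ψ 0 = 0)
    (horth : I (fun _ => 0) (fun x => x * ψ x) = 0) :
    3 * I (fun _ => 0) (fun x => ψ x ^ 2) ≤ I (fun _ => 0) fun x => ψ' x ^ 2 := by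
  simp only [I, wt_none] at horth ⊢
  set s := Real.sqrt 3
  set b0 := |ψ s| / s
  set F := fun ε : ℝ => fun L : ℝ => 3 * (∫ x in ε..L, ψ x ^ 2 * gw x) -
    4 * b0 * |∫ x in ε..L, x * ψ x * gw x|
  have hcψ : Continuous ψ := hg.cont
  have hcg := continuous_gw
  have key : ∀ᶠ ε in 𝓝[>] (0 : ℝ), ∀ᶠ L in atTop,
      F ε L - ψ ε ^ 2 * gw ε / ε ≤ ∫ x in ε..L, ψ' x ^ 2 * gw x := by
    filter_upwards [Ioo_mem_nhdsGT (show (0 : ℝ) < 1 from one_pos)] with ε hε
    filter_upwards [eventually_ge_atTop (3 : ℝ)] with L hL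
    obtain ⟨b, hb, hle⟩ := hardy_interval hd hg'.cont hε.1 (by linarith [hε.2])
      (by nlinarith [hε.1, hε.2]) (by nlinarith)
    refine le_trans ?_ hle
    have h1 : b * (∫ x in ε..L, x * ψ x * gw x) ≤ b0 * |∫ x in ε..L, x * ψ x * gw x| := by
      refine (le_abs_self _).trans ?_
      rw [abs_mul]
      exact mul_le_mul_of_nonneg_right hb (abs_nonneg _)
    have h2 : 0 ≤ 2 * b ^ 2 * ∫ x in ε..L, x ^ 2 * gw x :=
      mul_nonneg (by positivity) (intervalIntegral.integral_nonneg (by linarith [hε.2]) fun x _ =>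
        mul_nonneg (sq_nonneg x) (Real.exp_pos _).le)
    simp only [F]
    linarith
  have hlim : ∀ {f : ℝ → ℝ}, EG f →
      Tendsto (fun ε => ∫ x in Ioi ε, f x * gw x) (𝓝[>] (0 : ℝ)) (𝓝 (∫ x in Ioi 0, f x * gw x)) := by
    intro f hf
    have hi : IntegrableOn (fun x => f x * gw x) (Ioi 0) := integrableOn_gauss hf
    have hfc : Continuous fun x => f x * gw x := hf.cont.mul hcg
    have ht : Tendsto (fun ε => ∫ x in (0 : ℝ)..ε, f x * gw x) (𝓝[>] (0 : ℝ)) (𝓝 0) := by
      have := (intervalIntegral.continuous_primitive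
        (fun a c => hfc.intervalIntegrable (μ := volume) a c) 0).tendsto 0
      rw [intervalIntegral.integral_same] at this
      exact this.mono_left nhdsWithin_le_nhds
    refine Tendsto.congr' ?_ (by simpa using
      (tendsto_const_nhds (x := ∫ x in Ioi 0, f x * gw x)).sub ht)
    filter_upwards [self_mem_nhdsWithin] with ε hε
    have := intervalIntegral.integral_interval_add_Ioi hi (hi.mono_set (Ioi_subset_Ioi (le_of_lt hε)))
    linarith
  have key2 : ∀ᶠ ε in 𝓝[>] (0 : ℝ), 3 * (∫ x in Ioi ε, ψ x ^ 2 * gw x) -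
      4 * b0 * |∫ x in Ioi ε, x * ψ x * gw x| - ψ ε ^ 2 * gw ε / ε ≤
        ∫ x in Ioi ε, ψ' x ^ 2 * gw x := by
    filter_upwards [key, self_mem_nhdsWithin] with ε hε hε0
    have hsub : Ioi ε ⊆ Ioi (0 : ℝ) := Ioi_subset_Ioi (le_of_lt hε0)
    have t : ∀ {f : ℝ → ℝ}, EG f → Tendsto (fun L => ∫ x in ε..L, f x * gw x) atTop
        (𝓝 (∫ x in Ioi ε, f x * gw x)) := fun hf => intervalIntegral_tendsto_integral_Ioi ε
      ((integrableOn_gauss hf).mono_set hsub) tendsto_id
    exact le_of_tendsto_of_tendsto ((((t (hg.pow 2)).const_mul 3).sub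
      ((t (EG.id.mul hg)).abs.const_mul (4 * b0))).sub_const _) (t (hg'.pow 2)) hε
  have hb : Tendsto (fun ε => ψ ε ^ 2 * gw ε / ε) (𝓝[>] (0 : ℝ)) (𝓝 0) := by
    have hs := ((hd 0).tendsto_slope_zero_right)
    have hp : Tendsto (fun ε => ψ ε * gw ε) (𝓝[>] (0 : ℝ)) (𝓝 0) := by
      have := (hcψ.mul hcg).tendsto 0
      simpa [h0, Pi.mul_def] using this.mono_left nhdsWithin_le_nhds
    have := hp.mul hs
    simp only [zero_add, h0, sub_zero, smul_eq_mul, zero_mul] at this
    refine this.congr fun ε => ?_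
    ring
  have := le_of_tendsto_of_tendsto ((((hlim (hg.pow 2)).const_mul 3).sub
    ((hlim (EG.id.mul hg)).abs.const_mul (4 * b0))).sub hb) (hlim (hg'.pow 2)) key2
  simpa [horth] using this

end Vale.Agent.P146.Gap
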