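import Vale.Agent.P146.Gap.Hardy

/-!
P146: no gap at zero, the one-dimensional inequality. For an odd increasing profile `u` that is
concave on the half-line, `(E x u)² < E u²` forces `E u'² > E u²` under `exp (-x²/2 + ∫ u)`.
-/

namespace Vale.Agent.P146.Gap

open MeasureTheory Set

/-- An increasing profile, concave on the half-line, with its derivative and primitive. -/
structure Profile (Φ u v : ℝ → ℝ) : Prop where
  pot : Pot Φ u
  deriv : ∀ x, HasDerivAt u (v x) x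
  cont : Continuous v
  zero : u 0 = 0
  nonneg : ∀ x, 0 ≤ x → 0 ≤ v x
  anti : AntitoneOn v (Ici 0)

variable {Φ u v : ℝ → ℝ}

namespace Profile

variable (h : Profile Φ u v)
include h

lemma egU : EG u := by
  obtain ⟨B, hB⟩ := h.pot.bdd
  exact EG.of_bdd h.pot.cont fun x _ => hB x

lemma egV : EG v :=
  EG.of_bdd h.cont fun x hx => by
    rw [abs_of_nonneg (h.nonneg x hx)]
    exact h.anti (self_mem_Ici) hx hx

lemma mono : MonotoneOn u (Ici 0) := by
  refine monotoneOn_of_hasDerivWithinAt_nonneg (convex_Ici 0) h.pot.cont.continuousOn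
    (fun x _ => (h.deriv x).hasDerivWithinAt) fun x hx => ?_
  rw [interior_Ici] at hx
  exact h.nonneg x (le_of_lt hx)

lemma u_nonneg {x : ℝ} (hx : 0 ≤ x) : 0 ≤ u x := h.zero ▸ h.mono self_mem_Ici hx hx

lemma mul_le {x : ℝ} (hx : 0 ≤ x) : x * v x ≤ u x := by
  have hm : MonotoneOn (fun y => u y - y * v x) (Icc 0 x) := by
    refine monotoneOn_of_hasDerivWithinAt_nonneg (convex_Icc 0 x)
      (h.pot.cont.sub (by fun_prop)).continuousOn
      (fun y _ => (((h.deriv y).fun_sub ((hasDerivAt_id' y).mul_const (v x))).congr_deriv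
        (by ring : _ = v y - v x)).hasDerivWithinAt) fun y hy => ?_
    rw [interior_Icc] at hy
    linarith [h.anti (show y ∈ Ici (0 : ℝ) from hy.1.le) (show x ∈ Ici (0 : ℝ) from hx) hy.2.le]
  have := hm (left_mem_Icc.2 hx) (right_mem_Icc.2 hx) hx
  simp only [h.zero, zero_mul, sub_zero] at this
  linarith

lemma ratio_anti {x y : ℝ} (hx : 0 < x) (hxy : x ≤ y) : x * u y ≤ y * u x := by
  have hm : AntitoneOn (fun z => u z / z) (Icc x y) := by
    refine antitoneOn_of_hasDerivWithinAt_nonpos (convex_Icc x y)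
      (h.pot.cont.continuousOn.div (by fun_prop) fun z hz => (hx.trans_le hz.1).ne')
      (fun z hz => ((h.deriv z).fun_div (hasDerivAt_id' z)
        (hx.trans_le (interior_subset hz).1).ne').hasDerivWithinAt) fun z hz => ?_
    have hz0 : 0 < z := hx.trans_le (interior_subset hz).1
    exact div_nonpos_of_nonpos_of_nonneg (by linarith [h.mul_le hz0.le]) (sq_nonneg _)
  have := hm (left_mem_Icc.2 hxy) (right_mem_Icc.2 hxy) hxy
  rw [div_le_div_iff₀ (hx.trans_le hxy) hx] at this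
  linarith

omit h in
lemma div_mul_le {Z A B C D : ℝ} (hZ : 0 < Z) (hle : A * B ≤ C * D) :
    A / Z * (B / Z) ≤ C / Z * (D / Z) := by
  rw [div_mul_div_comm, div_mul_div_comm]
  exact div_le_div_of_nonneg_right hle (mul_pos hZ hZ).le

/-- The expectation under the tilt `exp (-x²/2 + Φ)`. -/
noncomputable def mean (Φ f : ℝ → ℝ) : ℝ := I Φ f / I Φ fun _ => 1

lemma mean_add {f g : ℝ → ℝ} (hf : EG f) (hg : EG g) :
    mean Φ (fun x => f x + g x) = mean Φ f + mean Φ g := by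
  simp only [mean, I_add h.pot hf hg, add_div]

omit h in
lemma mean_smul (c : ℝ) (f : ℝ → ℝ) : mean Φ (fun x => c * f x) = c * mean Φ f := by
  simp only [mean, I_smul, mul_div_assoc]

lemma mean_one : mean Φ (fun _ => 1) = 1 := div_self (I_one_pos h.pot).ne'

lemma mean_nonneg {f : ℝ → ℝ} (hf : ∀ x, 0 < x → 0 ≤ f x) : 0 ≤ mean Φ f :=
  div_nonneg (I_nonneg hf) (I_one_pos h.pot).le

lemma mean_ibp {f f' : ℝ → ℝ} (hf : ∀ x, HasDerivAt f (f' x) x) (h0 : f 0 = 0) (hg : EG f)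
    (hg' : EG f') : mean Φ (fun x => x * f x) = mean Φ f' + mean Φ fun x => f x * u x := by
  simp only [mean, ibp h.pot hf h0 hg hg', add_div]

lemma mean_pair {A B C D : ℝ → ℝ} (hA : EG A) (hB : EG B) (hC : EG C) (hD : EG D)
    (hle : ∀ x y, 0 < x → x ≤ y → A x * B y + A y * B x ≤ C x * D y + C y * D x) :
    mean Φ A * mean Φ B ≤ mean Φ C * mean Φ D :=
  div_mul_le (I_one_pos h.pot) (pair_le h.pot hA hB hC hD hle)

/-- The first moment of the profile against the identity is `E v + E u²`. -/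
lemma mean_xu : mean Φ (fun x => x * u x) = mean Φ v + mean Φ fun x => u x ^ 2 := by
  rw [h.mean_ibp h.deriv h.zero h.egU h.egV]
  exact congrArg _ (congrArg _ (funext fun x => (sq (u x)).symm))

lemma mean_sq : mean Φ (fun x => x ^ 2) = 1 + mean Φ fun x => x * u x := by
  rw [← h.mean_one, ← h.mean_ibp (f := fun x => x) hasDerivAt_id' rfl EG.id (EG.const 1)]
  exact congrArg _ (funext fun x => sq x)

lemma mean_xu3 :
    mean Φ (fun x => x * u x ^ 3) = 3 * mean Φ (fun x => v x * u x ^ 2) +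
      mean Φ fun x => u x ^ 4 := by
  rw [h.mean_ibp (f := fun x => u x ^ 3) (fun x => (h.deriv x).fun_pow 3) (by simp [h.zero])
    (h.egU.pow 3) ((EG.smul _ (h.egU.pow (3 - 1))).mul h.egV), ← mean_smul]
  congr 1
  · exact congrArg _ (funext fun x => by push_cast; ring)

lemma mean_x2u2 :
    mean Φ (fun x => x ^ 2 * u x ^ 2) = mean Φ (fun x => u x ^ 2) +
      2 * mean Φ (fun x => x * u x * v x) +
      (3 * mean Φ (fun x => v x * u x ^ 2) + mean Φ fun x => u x ^ 4) := by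
  have hu := h.egU
  have hv := h.egV
  have hg1 : EG fun x => u x ^ 2 := hu.pow 2
  have hg2 : EG fun x => 2 * (x * u x * v x) := EG.smul _ ((EG.id.mul hu).mul hv)
  have hd : ∀ x, HasDerivAt (fun y => y * u y ^ 2) (u x ^ 2 + 2 * (x * u x * v x)) x := fun x =>
    ((hasDerivAt_id' x).fun_mul ((h.deriv x).fun_pow 2)).congr_deriv (by push_cast; ring)
  have := h.mean_ibp hd (by simp) (EG.id.mul hg1) (hg1.add hg2)
  rw [h.mean_add hg1 hg2, mean_smul, show (fun x => x * u x ^ 2 * u x) = fun x => x * u x ^ 3 from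
    funext fun x => by ring, h.mean_xu3] at this
  rw [← this]
  exact congrArg _ (funext fun x => by ring)

lemma mean_x4 :
    mean Φ (fun x => x ^ 4) = 3 * mean Φ (fun x => x ^ 2) + mean Φ fun x => x ^ 3 * u x := by
  rw [← mean_smul, ← h.mean_ibp (f := fun x => x ^ 3) (f' := fun x => 3 * x ^ 2)
    (fun x => (hasDerivAt_pow 3 x).congr_deriv (by push_cast; ring)) (by simp) (EG.id.pow 3)
    (EG.smul _ (EG.id.pow 2))]
  exact congrArg _ (funext fun x => by ring)

lemma rho_le : mean Φ (fun x => v x * u x ^ 2) ≤ mean Φ v * mean Φ fun x => u x ^ 2 := by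
  have := h.mean_pair (h.egV.mul (h.egU.pow 2)) (EG.const 1) h.egV (h.egU.pow 2)
    fun x y hx hxy => by
      have h1 := h.anti hx.le (hx.le.trans hxy) hxy
      have h2 := pow_le_pow_left₀ (h.u_nonneg hx.le) (h.mono hx.le (hx.le.trans hxy) hxy) 2
      nlinarith [mul_nonneg (sub_nonneg.2 h1) (sub_nonneg.2 h2)]
  rwa [h.mean_one, mul_one] at this

lemma x3u_le : mean Φ (fun x => x ^ 3 * u x) * mean Φ (fun x => x ^ 2) ≤
    mean Φ (fun x => x ^ 4) * mean Φ fun x => x * u x :=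
  h.mean_pair ((EG.id.pow 3).mul h.egU) (EG.id.pow 2) (EG.id.pow 4) (EG.id.mul h.egU)
    fun x y hx hxy => by
      have h1 := h.ratio_anti hx hxy
      have h2 : 0 ≤ x * y * (y ^ 2 - x ^ 2) :=
        mul_nonneg (mul_nonneg hx.le (hx.le.trans hxy)) (by nlinarith)
      nlinarith [mul_nonneg h2 (sub_nonneg.2 h1)]

lemma u4_le {l : ℝ} (hl : 0 ≤ l) :
    (mean Φ (fun x => u x ^ 4) + l * mean Φ (fun x => x ^ 2 * u x ^ 2)) * mean Φ (fun x => x ^ 2) ≤
      (mean Φ (fun x => x ^ 2 * u x ^ 2) + l * mean Φ (fun x => x ^ 4)) *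
        mean Φ fun x => u x ^ 2 := by
  have hu := h.egU
  have h1 : EG fun x => x ^ 2 * u x ^ 2 := (EG.id.pow 2).mul (hu.pow 2)
  have a1 : mean Φ (fun x => u x ^ 4) + l * mean Φ (fun x => x ^ 2 * u x ^ 2) =
      mean Φ fun x => u x ^ 4 + l * (x ^ 2 * u x ^ 2) := by
    rw [h.mean_add (hu.pow 4) (EG.smul l h1), mean_smul]
  have a2 : mean Φ (fun x => x ^ 2 * u x ^ 2) + l * mean Φ (fun x => x ^ 4) =
      mean Φ fun x => x ^ 2 * u x ^ 2 + l * x ^ 4 := by
    rw [h.mean_add h1 (EG.smul l (EG.id.pow 4)), mean_smul]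
  rw [a1, a2]
  refine h.mean_pair ((hu.pow 4).add (EG.smul l h1)) (EG.id.pow 2)
    (h1.add (EG.smul l (EG.id.pow 4))) (hu.pow 2) fun x y hx hxy => ?_
  have h2 := pow_le_pow_left₀ (mul_nonneg hx.le (h.u_nonneg (hx.le.trans hxy)))
    (h.ratio_anti hx hxy) 2
  have h3 := pow_le_pow_left₀ (h.u_nonneg hx.le) (h.mono hx.le (hx.le.trans hxy) hxy) 2
  have h4 : x ^ 2 ≤ y ^ 2 := pow_le_pow_left₀ hx.le hxy 2
  nlinarith [mul_nonneg (sub_nonneg.2 h2)
    (add_nonneg (sub_nonneg.2 h3) (mul_nonneg hl (sub_nonneg.2 h4)))]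

lemma half_xu_le :
    I (fun x => Φ x / 2) (fun x => x * u x) ≤
      mean Φ (fun x => x * u x) * I (fun x => Φ x / 2) fun _ => 1 := by
  have hp' := h.pot.half
  have he : EG fun x => Real.exp (Φ x / 2) := hp'.eg_exp
  have hshift : ∀ f : ℝ → ℝ, I (fun x => Φ x / 2) (fun x => f x * Real.exp (Φ x / 2)) = I Φ f :=
    fun f => setIntegral_congr_fun measurableSet_Ioi fun x _ => by
      simp only [wt]
      rw [mul_assoc, ← Real.exp_add]
      congr 2
      ring
  have hmono : MonotoneOn Φ (Ici 0) := by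
    refine monotoneOn_of_hasDerivWithinAt_nonneg (convex_Ici 0)
      h.pot.continuous_pot.continuousOn (fun x _ => (h.pot.deriv x).hasDerivWithinAt) fun x hx => ?_
    rw [interior_Ici] at hx
    exact h.u_nonneg (le_of_lt hx)
  have := pair_le hp' (EG.id.mul h.egU) he (EG.const 1) ((EG.id.mul h.egU).mul he) fun x y hx hxy => by
    have h1 : x * u x ≤ y * u y :=
      mul_le_mul hxy (h.mono hx.le (hx.le.trans hxy) hxy) (h.u_nonneg hx.le) (hx.le.trans hxy)
    have h2 : Real.exp (Φ x / 2) ≤ Real.exp (Φ y / 2) :=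
      Real.exp_le_exp.2 (by linarith [hmono hx.le (hx.le.trans hxy) hxy])
    nlinarith [mul_nonneg (sub_nonneg.2 h1) (sub_nonneg.2 h2)]
  rw [hshift, show I (fun x => Φ x / 2) (fun x => Real.exp (Φ x / 2)) = I Φ fun _ => 1 from
    (congrArg _ (funext fun x => (one_mul _).symm)).trans (hshift fun _ => 1)] at this
  rw [mean, div_mul_eq_mul_div, le_div_iff₀ (I_one_pos h.pot)]
  linarith

/-- The gap applied to `(u - k x) exp (Φ/2)`, with `k` making it orthogonal to the identity. -/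
lemma gap_quad :
    ∃ k, 0 ≤ k ∧ k ≤ mean Φ (fun x => x * u x) ∧
      0 ≤ mean Φ (fun x => v x ^ 2) + mean Φ (fun x => v x * u x ^ 2) +
          mean Φ (fun x => u x ^ 4) / 4 - 3 * mean Φ (fun x => u x ^ 2) +
        k * (4 * mean Φ (fun x => x * u x) + 3 / 2 * mean Φ (fun x => u x ^ 2) -
          mean Φ (fun x => x ^ 2 * u x ^ 2) / 2) -
        k ^ 2 * (2 * mean Φ (fun x => x ^ 2) - mean Φ (fun x => x ^ 2 * u x ^ 2) / 4) := by
  have hu := h.egU
  have hv := h.egV
  have hp' := h.pot.half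
  set φ := fun x => Φ x / 2
  set N := I φ fun x => x * u x
  set Z' := I φ fun _ => 1
  have hZ' : 0 < Z' := I_one_pos hp'
  have hN : 0 ≤ N := I_nonneg fun x hx => mul_nonneg hx.le (h.u_nonneg hx.le)
  have hD : I φ (fun x => x ^ 2) = Z' + N / 2 := by
    have := ibp hp' (h := fun x => x) hasDerivAt_id' rfl EG.id (EG.const 1)
    rw [show (fun x : ℝ => x * x) = fun x => x ^ 2 from funext fun x => (sq x).symm] at this
    rw [this, show (fun x => x * (u x / 2)) = fun x => 1 / 2 * (x * u x) from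
      funext fun x => by ring, I_smul]
    ring
  set D := I φ fun x => x ^ 2
  have hD0 : 0 < D := by linarith
  set k := N / D
  have hk0 : 0 ≤ k := div_nonneg hN hD0.le
  have hk1 : k ≤ mean Φ (fun x => x * u x) := by
    rw [div_le_iff₀ hD0]
    refine h.half_xu_le.trans (mul_le_mul_of_nonneg_left (by linarith) ?_)
    exact h.mean_nonneg fun x hx => mul_nonneg hx.le (h.u_nonneg hx.le)
  refine ⟨k, hk0, hk1, ?_⟩
  -- the gap
  set ψ := fun x => (u x - k * x) * Real.exp (φ x)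
  set w' := fun x => v x - k + (u x - k * x) * (u x / 2)
  set ψ' := fun x => w' x * Real.exp (φ x)
  have he := hp'.eg_exp
  have hwe : EG fun x => u x - k * x := hu.sub (EG.smul k EG.id)
  have hw' : EG w' := (hv.sub (EG.const k)).add (hwe.mul
    ((hu.mul (EG.const (2 : ℝ)⁻¹)).mul (EG.const 1) |> fun e => by simpa [div_eq_mul_inv] using e))
  have hd : ∀ x, HasDerivAt ψ (ψ' x) x := fun x =>
    (((h.deriv x).fun_sub ((hasDerivAt_id' x).const_mul k)).fun_mul (hp'.deriv x).exp).congr_deriv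
      (by simp only [ψ', w', φ]; ring)
  have hsq : ∀ f : ℝ → ℝ, I (fun _ => 0) (fun x => (f x * Real.exp (φ x)) ^ 2) =
      I Φ fun x => f x ^ 2 := fun f => setIntegral_congr_fun measurableSet_Ioi fun x _ => by
    simp only [wt, φ, mul_pow, ← Real.exp_nat_mul, mul_assoc, ← Real.exp_add]
    congr 2
    push_cast
    ring
  have horth : I (fun _ => 0) (fun x => x * ψ x) = 0 := by
    have e : I (fun _ => 0) (fun x => x * ψ x) = I φ fun x => x * u x - k * x ^ 2 :=
      setIntegral_congr_fun measurableSet_Ioi fun x _ => by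
        simp only [wt, ψ, φ, Real.exp_add, Real.exp_zero]
        ring
    rw [e, I_sub hp' (EG.id.mul hu) (EG.smul k (EG.id.pow 2)), I_smul]
    change N - N / D * D = 0
    rw [div_mul_cancel₀ _ hD0.ne', sub_self]
  have gap := gauss_gap hd (hw'.mul he) (hwe.mul he) (by simp [ψ, h.zero]) horth
  rw [hsq, hsq] at gap
  have gap' : 3 * mean Φ (fun x => (u x - k * x) ^ 2) ≤ mean Φ fun x => w' x ^ 2 := by
    rw [mean, mean, ← mul_div_assoc]
    exact div_le_div_of_nonneg_right gap (I_one_pos h.pot).le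
  -- expansion
  have g1 : EG fun x => x * u x * v x := (EG.id.mul hu).mul hv
  have g2 : EG fun x => x * u x ^ 3 := EG.id.mul (hu.pow 3)
  have g3 : EG fun x => x ^ 2 * u x ^ 2 := (EG.id.pow 2).mul (hu.pow 2)
  have e1 : mean Φ (fun x => (u x - k * x) ^ 2) = mean Φ (fun x => u x ^ 2) +
      ((-2 * k) * mean Φ (fun x => x * u x) + k ^ 2 * mean Φ fun x => x ^ 2) := by
    rw [← mean_smul, ← mean_smul, ← h.mean_add (EG.smul _ (EG.id.mul hu))
      (EG.smul _ (EG.id.pow 2)), ← h.mean_add (hu.pow 2)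
      ((EG.smul _ (EG.id.mul hu)).add (EG.smul _ (EG.id.pow 2)))]
    exact congrArg _ (funext fun x => by ring)
  have e2 : mean Φ (fun x => w' x ^ 2) = mean Φ (fun x => v x ^ 2) +
      ((mean Φ fun x => v x * u x ^ 2) + (1 / 4 * mean Φ (fun x => u x ^ 4) +
      ((-2 * k) * mean Φ v + ((-k) * mean Φ (fun x => x * u x * v x) +
      ((-k) * mean Φ (fun x => u x ^ 2) + ((-k / 2) * mean Φ (fun x => x * u x ^ 3) +
      (k ^ 2 * mean Φ (fun _ => 1) + (k ^ 2 * mean Φ (fun x => x * u x) +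
      k ^ 2 / 4 * mean Φ fun x => x ^ 2 * u x ^ 2)))))))) := by
    simp only [← mean_smul]
    have s1 := (EG.smul (k ^ 2) (EG.id.mul hu)).add (EG.smul (k ^ 2 / 4) g3)
    have s2 := (EG.smul (k ^ 2) (EG.const 1)).add s1
    have s3 := (EG.smul (-k / 2) g2).add s2
    have s4 := (EG.smul (-k) (hu.pow 2)).add s3
    have s5 := (EG.smul (-k) g1).add s4
    have s6 := (EG.smul (-2 * k) hv).add s5
    have s7 := (EG.smul (1 / 4) (hu.pow 4)).add s6
    rw [← h.mean_add (EG.smul (k ^ 2) (EG.id.mul hu)) (EG.smul (k ^ 2 / 4) g3),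
      ← h.mean_add (EG.smul (k ^ 2) (EG.const 1)) s1, ← h.mean_add (EG.smul (-k / 2) g2) s2,
      ← h.mean_add (EG.smul (-k) (hu.pow 2)) s3, ← h.mean_add (EG.smul (-k) g1) s4,
      ← h.mean_add (EG.smul (-2 * k) hv) s5, ← h.mean_add (EG.smul (1 / 4) (hu.pow 4)) s6,
      ← h.mean_add (hv.mul (hu.pow 2)) s7, ← h.mean_add (hv.pow 2) ((hv.mul (hu.pow 2)).add s7)]
    exact congrArg _ (funext fun x => by simp only [w']; ring)
  rw [e1, e2, h.mean_one] at gap'
  have f0 := h.mean_x2u2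
  have f1 := h.mean_xu3
  have f2 := h.mean_xu
  have f3 := h.mean_sq
  have f4 : mean Φ (fun x => x * u x * v x) = (mean Φ (fun x => x ^ 2 * u x ^ 2) -
      mean Φ (fun x => u x ^ 2) - mean Φ (fun x => x * u x ^ 3)) / 2 := by linarith
  rw [f4, f1, f3] at gap'
  rw [f3]
  have f5 : mean Φ v = mean Φ (fun x => x * u x) - mean Φ fun x => u x ^ 2 := by linarith
  rw [f5] at gap'
  linarith

omit h in
lemma poly_bound {Q P k : ℝ} (hk0 : 0 ≤ k) (hk1 : k ≤ P) (hP1 : P < 1) (hPQ : P ^ 2 ≤ Q) :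
    -(Q * (2 - P + Q / 4)) + k * (4 * P + Q * (1 - 3 / 2 * P)) -
      k ^ 2 * (2 + 2 * P - Q * (1 + 3 * P) / 4) ≤ -((Q - P ^ 2) / 2) := by
  have hP0 : 0 ≤ P := hk0.trans hk1
  have hd : 0 ≤ Q - P ^ 2 := sub_nonneg.2 hPQ
  have hslope : -2 + P - (Q + P ^ 2) / 4 + k * (1 - 3 / 2 * P) + k ^ 2 * (1 + 3 * P) / 4 ≤
      -(1 / 2) := by
    nlinarith [mul_le_mul_of_nonneg_right hk1 hk0, mul_nonneg hk0 hP0, sq_nonneg P, hd,
      mul_le_mul_of_nonneg_right (show k ^ 2 ≤ 1 by nlinarith) (show (0 : ℝ) ≤ 1 + 3 * P by linarith)]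
  have hA : 0 < 2 + 2 * P - P ^ 2 * (1 + 3 * P) / 4 := by
    nlinarith [show P ^ 2 ≤ 1 by nlinarith, show P ^ 3 ≤ 1 by nlinarith [sq_nonneg P]]
  have hdisc : (4 * P + P ^ 2 * (1 - 3 / 2 * P)) ^ 2 ≤
      4 * (2 + 2 * P - P ^ 2 * (1 + 3 * P) / 4) * (P ^ 2 * (2 - P + P ^ 2 / 4)) := by
    nlinarith [mul_nonneg (pow_nonneg hP0 4) (show (0 : ℝ) ≤ 3 + P ^ 2 / 2 - 3 / 4 * P ^ 3 by
      nlinarith [show P ^ 3 ≤ 1 by nlinarith [sq_nonneg P]])]
  have hbase : -(P ^ 2 * (2 - P + P ^ 2 / 4)) + k * (4 * P + P ^ 2 * (1 - 3 / 2 * P)) -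
      k ^ 2 * (2 + 2 * P - P ^ 2 * (1 + 3 * P) / 4) ≤ 0 := by
    set A := 2 + 2 * P - P ^ 2 * (1 + 3 * P) / 4
    set B := 4 * P + P ^ 2 * (1 - 3 / 2 * P)
    set C := P ^ 2 * (2 - P + P ^ 2 / 4)
    nlinarith [sq_nonneg (2 * A * k - B)]
  have := mul_le_mul_of_nonneg_left hslope hd
  nlinarith

/-- No gap: `(E x u)² < E u²` forces `E v² > E u²`, quantitatively. -/
theorem main (hPQ : mean Φ (fun x => x * u x) ^ 2 < mean Φ fun x => u x ^ 2) :
    (mean Φ (fun x => u x ^ 2) - mean Φ (fun x => x * u x) ^ 2) / 2 ≤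
      mean Φ (fun x => v x ^ 2) - mean Φ fun x => u x ^ 2 := by
  obtain ⟨k, hk0, hk1, hq⟩ := h.gap_quad
  have hS := h.mean_x2u2
  have hW : 0 ≤ mean Φ (fun x => x * u x * v x) := h.mean_nonneg fun x hx =>
    mul_nonneg (mul_nonneg hx.le (h.u_nonneg hx.le)) (h.nonneg x hx.le)
  have ha : 0 ≤ mean Φ v := h.mean_nonneg fun x hx => h.nonneg x hx.le
  have hxu := h.mean_xu
  have hT := h.mean_sq
  have hrho := h.rho_le
  have hL := h.mean_x4
  have hJ := h.x3u_le
  set P := mean Φ fun x => x * u x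
  set Q := mean Φ fun x => u x ^ 2
  set T := mean Φ fun x => x ^ 2
  set K := mean Φ fun x => u x ^ 4
  set L := mean Φ fun x => x ^ 4
  set S := mean Φ fun x => x ^ 2 * u x ^ 2
  set rho := mean Φ fun x => v x * u x ^ 2
  have hQ : 0 ≤ Q := h.mean_nonneg fun x _ => sq_nonneg _
  have hP0 : 0 ≤ P := by linarith
  have hP1 : P < 1 := by nlinarith
  have hT1 : 1 ≤ T := by linarith
  -- `L ≤ 3 T²`
  have hL3 : L ≤ 3 * T ^ 2 := by nlinarith
  -- `K ≤ 3 Q²`
  have hK : K ≤ 3 * Q ^ 2 := by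
    have := h.u4_le (div_nonneg hQ (by linarith : (0 : ℝ) ≤ T))
    have e1 : (K + Q / T * S) * T = K * T + Q * S := by field_simp
    have e2 : (S + Q / T * L) * Q = S * Q + Q ^ 2 * L / T := by field_simp
    rw [e1, e2] at this
    have h2 : K * T ≤ Q ^ 2 * L / T := by linarith
    rw [le_div_iff₀ (by linarith : (0 : ℝ) < T)] at h2
    have h3 := mul_le_mul_of_nonneg_left hL3 (sq_nonneg Q)
    by_contra hcon
    nlinarith [mul_lt_mul_of_pos_right (not_le.1 hcon) (mul_pos (by linarith : (0 : ℝ) < T)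
      (by linarith : (0 : ℝ) < T))]
  have hk2 : k * (2 - k) ≤ 1 := by nlinarith [sq_nonneg (k - 1)]
  have hS' : Q + 3 * rho + K ≤ S := by linarith
  have hrho' : rho ≤ (P - Q) * Q := by rwa [show P - Q = mean Φ v by linarith]
  have key : 0 ≤ mean Φ (fun x => v x ^ 2) - Q + (-(Q * (2 - P + Q / 4)) +
      k * (4 * P + Q * (1 - 3 / 2 * P)) - k ^ 2 * (2 + 2 * P - Q * (1 + 3 * P) / 4)) := by
    rw [hT] at hq
    have hc : 0 ≤ k * (2 - k) := mul_nonneg hk0 (by linarith)
    nlinarith [mul_le_mul_of_nonneg_left hS' hc,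
      mul_nonneg (show (0 : ℝ) ≤ 1 - 3 / 4 * (k * (2 - k)) by linarith) (sub_nonneg.2 hrho'),
      mul_nonneg (show (0 : ℝ) ≤ 1 / 4 - 1 / 4 * (k * (2 - k)) by linarith) (sub_nonneg.2 hK)]
  have := poly_bound hk0 hk1 hP1 hPQ.le
  linarith

end Profile

/-- The Gaussian case. -/
theorem gauss_main {u v : ℝ → ℝ} (hd : ∀ x, HasDerivAt u (v x) x) (hu : EG u) (hv : EG v)
    (h0 : u 0 = 0) :
    3 * Profile.mean (fun _ => 0) (fun x => u x ^ 2) -
        2 * Profile.mean (fun _ => 0) (fun x => x * u x) ^ 2 ≤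
      Profile.mean (fun _ => 0) fun x => v x ^ 2 := by
  have hp := Pot.none
  set Z := I (fun _ => 0) fun _ => 1
  have hZ : 0 < Z := I_one_pos hp
  have hZ2 : I (fun _ => 0) (fun x => x ^ 2) = Z := by
    have := ibp hp (h := fun x => x) hasDerivAt_id' rfl EG.id (EG.const 1)
    rw [show (fun x : ℝ => x * x) = fun x => x ^ 2 from funext fun x => (sq x).symm] at this
    rw [this]
    simp [I, Z]
  set N := I (fun _ => 0) fun x => x * u x
  set k := N / Z
  have hw : EG fun x => u x - k * x := hu.sub (EG.smul k EG.id)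
  have horth : I (fun _ => 0) (fun x => x * (u x - k * x)) = 0 := by
    rw [show (fun x => x * (u x - k * x)) = fun x => x * u x - k * x ^ 2 from
      funext fun x => by ring, I_sub hp (EG.id.mul hu) (EG.smul k (EG.id.pow 2)), I_smul, hZ2]
    change N - N / Z * Z = 0
    rw [div_mul_cancel₀ _ hZ.ne', sub_self]
  have gap := gauss_gap (fun x => ((hd x).fun_sub ((hasDerivAt_id' x).const_mul k)).congr_deriv
    (by ring : _ = v x - k)) (hv.sub (EG.const k)) hw (by simp [h0]) horth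
  have e1 : I (fun _ => 0) (fun x => (u x - k * x) ^ 2) =
      I (fun _ => 0) (fun x => u x ^ 2) + ((-2 * k) * N + k ^ 2 * Z) := by
    rw [← hZ2, ← I_smul, ← I_smul, ← I_add hp (EG.smul _ (EG.id.mul hu)) (EG.smul _ (EG.id.pow 2)),
      ← I_add hp (hu.pow 2) ((EG.smul _ (EG.id.mul hu)).add (EG.smul _ (EG.id.pow 2)))]
    exact congrArg _ (funext fun x => by ring)
  have ev : I (fun _ => 0) v = N := by
    have := ibp hp hd h0 hu hv
    simp only [mul_zero] at this
    simpa [I, N] using this.symm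
  have e2 : I (fun _ => 0) (fun x => (v x - k) ^ 2) =
      I (fun _ => 0) (fun x => v x ^ 2) + ((-2 * k) * N + k ^ 2 * Z) := by
    rw [← ev, ← I_smul, ← I_smul, ← I_add hp (EG.smul _ hv) (EG.smul _ (EG.const 1)),
      ← I_add hp (hv.pow 2) ((EG.smul _ hv).add (EG.smul _ (EG.const 1)))]
    exact congrArg _ (funext fun x => by ring)
  rw [e1, e2] at gap
  simp only [Profile.mean]
  rw [div_pow, le_div_iff₀ hZ]
  have e3 : k ^ 2 * Z = N ^ 2 / Z := by simp only [k]; field_simp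
  have e4 : k * N = N ^ 2 / Z := by simp only [k]; ring
  have e5 : (3 * (I (fun _ => 0) (fun x => u x ^ 2) / Z) - 2 * (N ^ 2 / Z ^ 2)) * Z =
      3 * I (fun _ => 0) (fun x => u x ^ 2) - 2 * (N ^ 2 / Z) := by field_simp
  change (3 * (I (fun _ => 0) (fun x => u x ^ 2) / Z) - 2 * (N ^ 2 / Z ^ 2)) * Z ≤ _
  linarith

end Vale.Agent.P146.Gap
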