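import Vale.Agent.P146.Gap.Lemma
import Vale.Agent.P146.Gap.Concave

/-!
P146: one tilted level over a spin family: the half-line form of its averages, the key inequality
in that form, and the increase of the mean squared slope across the level.
-/

namespace Vale.Agent.P146.Gap

open MeasureTheory ProbabilityTheory Set Filter
open Vale.Agent.P157 Vale.Agent.P157.Low Vale.Agent.P166F Vale.Agent.P166N

variable {F : Fam} {m : ℝ} {θ : ℝ → ℝ}

/-- The time slice of a family. -/
lemma fam_slice (F : Fam) : Continuous (F.U 0) ∧ Continuous (F.U1 0) ∧ Continuous (F.U2 0) :=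
  have h : Continuous fun x : ℝ => ((0 : ℝ), x) := by fun_prop
  ⟨F.cont.comp h, F.cont1.comp h, F.cont2.comp h⟩

/-- An integral of an even function against the standard Gaussian. -/
lemma gauss_half {g : ℝ → ℝ} (hi : Integrable g (gaussianReal 0 1)) (he : ∀ z, g (-z) = g z) :
    ∫ z, g z ∂gaussianReal 0 1 =
      2 * (Real.sqrt (2 * Real.pi))⁻¹ * ∫ z in Ioi 0, g z * Real.exp (-(z ^ 2) / 2) := by
  set K := (Real.sqrt (2 * Real.pi))⁻¹
  have hp : ∀ z, gaussianPDFReal 0 1 z = K * Real.exp (-(z ^ 2) / 2) := fun z => by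
    simp [gaussianPDFReal, K]
  have hf : Integrable fun z => K * Real.exp (-(z ^ 2) / 2) * g z := by
    rw [gaussianReal_of_var_ne_zero 0 one_ne_zero, integrable_withDensity_iff (measurable_gaussianPDF 0 1)
      (Eventually.of_forall fun _ => gaussianPDF_lt_top)] at hi
    simpa [toReal_gaussianPDF, hp, mul_comm] using hi
  rw [integral_gaussianReal_eq_integral_smul one_ne_zero]
  simp only [smul_eq_mul, hp]
  rw [← intervalIntegral.integral_Iic_add_Ioi hf.integrableOn hf.integrableOn (b := 0)]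
  have e : ∫ z in Iic 0, K * Real.exp (-(z ^ 2) / 2) * g z =
      ∫ z in Ioi 0, K * Real.exp (-(z ^ 2) / 2) * g z := by
    have := integral_comp_neg_Iic (0 : ℝ) fun z => K * Real.exp (-(z ^ 2) / 2) * g z
    rw [neg_zero] at this
    rw [← this]
    exact setIntegral_congr_fun measurableSet_Iic fun z _ => by simp [he]
  rw [e, ← two_mul, mul_assoc 2 K, ← integral_const_mul K]
  congr 1
  exact setIntegral_congr_fun measurableSet_Ioi fun z _ => by ring

/-- Averages of even functions over one level, on the half-line. -/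
lemma insStep_eq_mean (F : Fam) (hm : 0 ≤ m) {a : ℝ} (hθ : Continuous θ) {B : ℝ}
    (hB : ∀ x, |θ x| ≤ B) (he : ∀ x, θ (-x) = θ x) :
    insStep m a (F.U 0) θ 0 = Profile.mean (fun z => m * F.U 0 (Real.sqrt a * z) - m * F.U 0 0)
      fun z => θ (Real.sqrt a * z) := by
  set r := Real.sqrt a
  have i1 := (F.pot 0).int_wgt hm hθ hB 0 r
  have i0 := (F.pot 0).int_exp hm 0 r
  simp only [zero_add] at i1 i0
  simp only [insStep, heat, zero_add]
  rw [gauss_half i1 (fun z => by simp only [mul_neg, F.even, he]),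
    gauss_half i0 (fun z => by simp only [mul_neg, F.even]),
    mul_div_mul_left _ _ (by positivity)]
  simp only [Profile.mean, Gap.I, wt, Real.exp_add, Real.exp_sub]
  have e1 : ∀ z, θ (r * z) * (Real.exp (-(z ^ 2) / 2) * (Real.exp (m * F.U 0 (r * z)) / Real.exp (m * F.U 0 0))) =
      Real.exp (m * F.U 0 (r * z)) * θ (r * z) * Real.exp (-(z ^ 2) / 2) / Real.exp (m * F.U 0 0) :=
    fun z => by ring
  have e0 : ∀ z, 1 * (Real.exp (-(z ^ 2) / 2) * (Real.exp (m * F.U 0 (r * z)) / Real.exp (m * F.U 0 0))) =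
      Real.exp (m * F.U 0 (r * z)) * Real.exp (-(z ^ 2) / 2) / Real.exp (m * F.U 0 0) :=
    fun z => by ring
  simp only [e1, e0, integral_div]
  exact (div_div_div_cancel_right₀ (Real.exp_pos _).ne' _ _).symm

/-- The key inequality at one level over a family with a concave slope. -/
theorem gap_level (F : Fam) (hanti : AntitoneOn (F.U2 0) (Ici 0)) (hm : 0 ≤ m) {a : ℝ} (ha : 0 < a)
    (hD : insStep m a (F.U 0) (F.th2 m 0) 0 ^ 2 * a < insStep m a (F.U 0) (fun x => F.U1 0 x ^ 2) 0) :
    insStep m a (F.U 0) (fun x => F.U1 0 x ^ 2) 0 <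
      a * insStep m a (F.U 0) (fun x => F.U2 0 x ^ 2) 0 := by
  obtain ⟨hc0, hc1, hc2⟩ := fam_slice F
  obtain ⟨B, hB⟩ := F.bdd
  have hb2 : ∀ x, |F.U2 0 x| ≤ B := fun x => by rw [abs_of_nonneg (F.nn 0 x)]; exact (hB 0 x).1
  have hb1 : ∀ x, |F.U1 0 x ^ 2| ≤ 1 := fun x => by
    rw [abs_of_nonneg (sq_nonneg _)]; exact F.sq_le_one 0 x
  have hb22 : ∀ x, |F.U2 0 x ^ 2| ≤ B ^ 2 := fun x => by
    rw [abs_pow]; exact pow_le_pow_left₀ (abs_nonneg _) (hb2 x) 2
  rw [insStep_eq_mean F hm (θ := fun x => F.U1 0 x ^ 2) (hc1.pow 2) hb1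
      (fun x => by simp only [fam_U1_neg, neg_sq]),
    insStep_eq_mean F hm (θ := F.th2 m 0) ((F.cont_th2 m).comp (by fun_prop : Continuous fun x : ℝ => ((0 : ℝ), x)))
      (F.bdd_th2 hm (fun t x => (hB t x).1) 0) (fun x => by simp [Fam.th2, fam_U1_neg, fam_U2_neg])] at hD
  rw [insStep_eq_mean F hm (θ := fun x => F.U1 0 x ^ 2) (hc1.pow 2) hb1
      (fun x => by simp only [fam_U1_neg, neg_sq]),
    insStep_eq_mean F hm (θ := fun x => F.U2 0 x ^ 2) (hc2.pow 2) hb22
      (fun x => by simp only [fam_U2_neg])]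
  set r := Real.sqrt a with hr
  have hr0 : 0 < r := Real.sqrt_pos.2 ha
  have hra : r ^ 2 = a := Real.sq_sqrt ha.le
  set u := fun z => F.U1 0 (r * z)
  set w := fun z => F.U2 0 (r * z)
  have hu : EG u := EG.of_bdd (hc1.comp (continuous_const_mul r)) fun z _ => F.one 0 _
  have hw : EG w := EG.of_bdd (hc2.comp (continuous_const_mul r)) fun z _ => hb2 _
  have du : ∀ z, HasDerivAt u (r * w z) z := fun z =>
    ((F.d2 0 _).comp z ((hasDerivAt_id' z).const_mul r)).congr_deriv (by ring)
  have u0 : u 0 = 0 := by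
    have := fam_U1_neg F 0 0
    simp only [neg_zero] at this
    simp only [u, mul_zero]
    linarith
  set Φ := fun z => m * F.U 0 (r * z) - m * F.U 0 0 with hΦ
  set Q := Profile.mean Φ fun z => u z ^ 2
  set R := Profile.mean Φ fun z => w z ^ 2
  set D := Profile.mean Φ fun z => F.th2 m 0 (r * z)
  change D ^ 2 * a < Q at hD
  change Q < a * R
  rcases eq_or_lt_of_le hm with rfl | hm0
  · have hΦ0 : Φ = fun _ => 0 := by funext z; simp [hΦ]
    have key := gauss_main (u := u) (v := fun z => r * w z) du hu (EG.smul r hw) u0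
    have exu : Profile.mean Φ (fun z => z * u z) = r * D := by
      have h := ibp Pot.none du u0 hu (EG.smul r hw)
      simp only [mul_zero] at h
      rw [show Gap.I (fun _ => 0) (fun _ => (0 : ℝ)) = 0 by simp [Gap.I], add_zero, I_smul] at h
      simp only [D, hΦ0, Profile.mean, h, mul_div_assoc, Fam.th2, zero_mul, add_zero, w]
    have ev : Profile.mean Φ (fun z => (r * w z) ^ 2) = a * R := by
      simp only [R, mul_pow, hra]
      simp only [Profile.mean, I_smul, mul_div_assoc]
    rw [← hΦ0, exu, ev, mul_pow, hra] at key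
    linarith
  · have hW : Profile Φ (fun z => m * r * u z) fun z => m * a * w z := by
      refine ⟨⟨fun z => ?_, (hu.cont.const_mul _), by simp [hΦ], m * r, fun z => ?_⟩, fun z => ?_,
        hw.cont.const_mul _, by simp [u0], fun z hz => ?_, fun z hz z' hz' hzz => ?_⟩
      · exact ((((F.d1 0 _).comp z ((hasDerivAt_id' z).const_mul r)).const_mul m).sub_const _).congr_deriv
          (by ring)
      · rw [abs_mul, abs_of_pos (mul_pos hm0 hr0)]
        exact mul_le_of_le_one_right (mul_pos hm0 hr0).le (F.one 0 _)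
      · exact ((du z).const_mul (m * r)).congr_deriv (by rw [← hra]; ring)
      · exact mul_nonneg (by positivity) (F.nn 0 _)
      · exact mul_le_mul_of_nonneg_left
          (hanti (mul_nonneg hr0.le hz) (mul_nonneg hr0.le hz') (mul_le_mul_of_nonneg_left hzz hr0.le))
          (by positivity)
    have eQ : Profile.mean Φ (fun z => (m * r * u z) ^ 2) = m ^ 2 * a * Q := by
      simp only [Q, mul_pow, hra]
      simp only [Profile.mean, I_smul, mul_div_assoc]
    have eR : Profile.mean Φ (fun z => (m * a * w z) ^ 2) = m ^ 2 * a * (a * R) := by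
      simp only [R, mul_pow]
      simp only [Profile.mean, I_smul, mul_div_assoc]
      ring
    have eP : Profile.mean Φ (fun z => z * (m * r * u z)) = m * a * D := by
      rw [hW.mean_xu, eQ, Profile.mean_smul]
      have e : (fun z => F.th2 m 0 (r * z)) = fun z => w z + m * u z ^ 2 := rfl
      simp only [D, e, Q]
      rw [hW.mean_add hw (EG.smul m (hu.pow 2)), Profile.mean_smul]
      ring
    have hpos : 0 < m ^ 2 * a := by positivity
    have key := hW.main (by rw [eP, eQ]; nlinarith [mul_lt_mul_of_pos_left hD hpos])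
    rw [eP, eQ, eR] at key
    nlinarith [mul_lt_mul_of_pos_left hD hpos]

/-- Sums under one level. -/
lemma insStep_add_mul {U θ' : ℝ → ℝ} (hU : P166F.Pot U) (hm : 0 ≤ m) (hθ : Continuous θ)
    (hθ' : Continuous θ') {B B' : ℝ} (hB : ∀ x, |θ x| ≤ B) (hB' : ∀ x, |θ' x| ≤ B') (c d y : ℝ) :
    insStep m d U (fun x => θ x + c * θ' x) y = insStep m d U θ y + c * insStep m d U θ' y := by
  have i1 := hU.int_wgt hm hθ hB y (Real.sqrt d)
  have i2 := (hU.int_wgt hm hθ' hB' y (Real.sqrt d)).const_mul c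
  simp only [insStep, heat, mul_add, mul_left_comm _ c]
  rw [integral_add i1 i2, integral_const_mul, add_div, mul_div_assoc]

lemma int_wgt_pow (F : Fam) (hm : 0 ≤ m) (hθ : Continuous θ) {B : ℝ} (hB : ∀ x, |θ x| ≤ B) (y c : ℝ)
    (n : ℕ) : Integrable (fun z => Real.exp (m * F.U 0 (y + c * z)) * θ (y + c * z) * z ^ n)
      (gaussianReal 0 1) := by
  obtain ⟨A, b, -, -, hA⟩ := ((F.pot 0).gb_wgt hm hθ hB).shift_bound 0 y |c|
  obtain ⟨hc0, -, -⟩ := fam_slice F
  refine ((P166F.integrable_exp_abs (b + 1)).const_mul (A * n.factorial)).mono' (by fun_prop)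
    (Eventually.of_forall fun z => ?_)
  have h1 : |z| ^ n ≤ n.factorial * Real.exp |z| := by
    have := Real.pow_div_factorial_le_exp |z| (abs_nonneg z) n
    rwa [div_le_iff₀ (by positivity), mul_comm] at this
  have h2 := hA 0 y c (by simp) (by simp) le_rfl z
  rw [Real.norm_eq_abs, abs_mul, abs_pow, add_one_mul, Real.exp_add]
  exact (mul_le_mul h2 h1 (by positivity) ((abs_nonneg _).trans h2)).trans (le_of_eq (by ring))

/-- The squared slope grows across one level at least by the squared curvature. -/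
theorem level_gain (F : Fam) (hm : 0 ≤ m) {e : ℝ} (he : 0 ≤ e) {B : ℝ} (hB : ∀ x, F.U2 0 x ≤ B) (y : ℝ) :
    insStep m e (F.U 0) (F.U1 0) y ^ 2 + e / (1 + e * m * (B + m)) *
        (insStep m e (F.U 0) (F.th2 m 0) y - m * insStep m e (F.U 0) (F.U1 0) y ^ 2) ^ 2 ≤
      insStep m e (F.U 0) (fun x => F.U1 0 x ^ 2) y := by
  obtain ⟨hc0, hc1, hc2⟩ := fam_slice F
  set c := Real.sqrt e with hc
  have hce : c ^ 2 = e := Real.sq_sqrt he
  have hb2 : ∀ x, |F.U2 0 x| ≤ B := fun x => by rw [abs_of_nonneg (F.nn 0 x)]; exact hB x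
  have hB0 : 0 ≤ B := (abs_nonneg _).trans (hb2 0)
  have hth : Continuous (F.th2 m 0) :=
    (F.cont_th2 m).comp (by fun_prop : Continuous fun x : ℝ => ((0 : ℝ), x))
  have hbth : ∀ x, |F.th2 m 0 x| ≤ B + m := fun x => by
    have h0 := mul_nonneg hm (sq_nonneg (F.U1 0 x))
    rw [Fam.th2, abs_of_nonneg (add_nonneg (F.nn 0 x) h0)]
    exact add_le_add (hB x) (mul_le_of_le_one_right hm (F.sq_le_one 0 x))
  set w := fun z => Real.exp (m * F.U 0 (y + c * z))
  set u := fun z => F.U1 0 (y + c * z)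
  set k := fun z => F.th2 m 0 (y + c * z)
  have iw : Integrable w (gaussianReal 0 1) := (F.pot 0).int_exp hm y c
  have iu : Integrable (fun z => w z * u z) (gaussianReal 0 1) := (F.pot 0).int_wgt hm hc1 (F.one 0) y c
  have iu2 : Integrable (fun z => w z * u z ^ 2) (gaussianReal 0 1) :=
    (F.pot 0).int_wgt hm (θ := fun x => F.U1 0 x ^ 2) (B := 1) (hc1.pow 2)
      (fun x => by rw [abs_of_nonneg (sq_nonneg _)]; exact F.sq_le_one 0 x) y c
  have ik : Integrable (fun z => w z * k z) (gaussianReal 0 1) := (F.pot 0).int_wgt hm hth hbth y c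
  have iz : Integrable (fun z => w z * z) (gaussianReal 0 1) := by
    simpa using int_wgt_pow F hm (θ := fun _ => 1) continuous_const (B := 1) (by simp) y c 1
  have iz2 : Integrable (fun z => w z * z ^ 2) (gaussianReal 0 1) := by
    simpa using int_wgt_pow F hm (θ := fun _ => 1) continuous_const (B := 1) (by simp) y c 2
  have iuz : Integrable (fun z => w z * u z * z) (gaussianReal 0 1) := by
    simpa using int_wgt_pow F hm hc1 (F.one 0) y c 1
  have dw : ∀ z, HasDerivAt w (c * m * (w z * u z)) z := fun z =>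
    ((((F.d1 0 _).comp z (((hasDerivAt_id' z).const_mul c).const_add y)).const_mul m).exp).congr_deriv
      (by simp only [w, u, Function.comp_apply]; ring)
  have du : ∀ z, HasDerivAt u (c * F.U2 0 (y + c * z)) z := fun z =>
    ((F.d2 0 _).comp z (((hasDerivAt_id' z).const_mul c).const_add y)).congr_deriv (by ring)
  set N := ∫ z, w z ∂gaussianReal 0 1
  set A1 := ∫ z, w z * u z ∂gaussianReal 0 1
  set A2 := ∫ z, w z * u z ^ 2 ∂gaussianReal 0 1
  set C := ∫ z, w z * k z ∂gaussianReal 0 1
  have hN : 0 < N := integral_exp_pos iw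
  have eB1 : ∫ z, w z * u z * z ∂gaussianReal 0 1 = c * C := by
    rw [← integral_const_mul]
    exact stein_real (fun z => ((dw z).fun_mul (du z)).congr_deriv (by
      simp only [k, Fam.th2, u]; ring)) iu (ik.const_mul c) iuz
  have eZ1 : ∫ z, w z * z ∂gaussianReal 0 1 = c * m * A1 := by
    rw [← integral_const_mul]
    exact stein_real dw iw (iu.const_mul _) iz
  have eZ2 : ∫ z, w z * z ^ 2 ∂gaussianReal 0 1 = N + c * m * (c * C) := by
    rw [← eB1, ← integral_const_mul, ← integral_add iw (iuz.const_mul _)]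
    have := stein_real (F := fun z => w z * z) (F' := fun z => w z + c * m * (w z * u z * z))
      (fun z => ((dw z).fun_mul (hasDerivAt_id' z)).congr_deriv (by ring)) iz
      (iw.fun_add (iuz.const_mul _)) (iz2.congr (Eventually.of_forall fun z => by ring))
    rw [← this]
    exact integral_congr_ae (Eventually.of_forall fun z => by ring)
  have quad : ∀ α l, 0 ≤ A2 - 2 * α * A1 - 2 * l * (c * C) + α ^ 2 * N + 2 * α * l * (c * m * A1) +
      l ^ 2 * (N + c * m * (c * C)) := fun α l => by
    rw [← eZ2, ← eB1, ← eZ1]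
    have h : 0 ≤ ∫ z, w z * (u z - α - l * z) ^ 2 ∂gaussianReal 0 1 :=
      integral_nonneg fun z => mul_nonneg (Real.exp_pos _).le (sq_nonneg _)
    have e : ∀ z, w z * (u z - α - l * z) ^ 2 = w z * u z ^ 2 - 2 * α * (w z * u z) -
        2 * l * (w z * u z * z) + α ^ 2 * w z + 2 * α * l * (w z * z) + l ^ 2 * (w z * z ^ 2) :=
      fun z => by ring
    simp only [e] at h
    have i1 := iu2.sub' (iu.const_mul (2 * α))
    have i2 := i1.sub' (iuz.const_mul (2 * l))
    have i3 := i2.fun_add (iw.const_mul (α ^ 2))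
    have i4 := i3.fun_add (iz.const_mul (2 * α * l))
    rw [integral_add i4 (iz2.const_mul _), integral_add i3 (iz.const_mul _),
      integral_add i2 (iw.const_mul _), integral_sub i1 (iuz.const_mul _),
      integral_sub iu2 (iu.const_mul _)] at h
    simpa only [integral_const_mul] using h
  have hins : ∀ θ : ℝ → ℝ, insStep m e (F.U 0) θ y =
      (∫ z, w z * θ (y + c * z) ∂gaussianReal 0 1) / N := fun θ => rfl
  rw [hins, hins, hins]
  change (A1 / N) ^ 2 + e / (1 + e * m * (B + m)) * (C / N - m * (A1 / N) ^ 2) ^ 2 ≤ A2 / N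
  set a1 := A1 / N with ha1
  set v := C / N - m * a1 ^ 2 with hv
  have hCN : C / N ≤ B + m := by
    rw [show C / N = insStep m e (F.U 0) (F.th2 m 0) y from rfl]
    exact (abs_le.1 (abs_insStep_le (F.pot 0) hm hth hbth e y)).2
  have hvle : v ≤ B + m := by linarith [mul_nonneg hm (sq_nonneg a1)]
  set M := 1 + e * m * (B + m)
  have hM : 0 < M := by positivity
  set l := c * v / M with hl
  have hq : 0 ≤ A2 / N - a1 ^ 2 - 2 * l * c * v + l ^ 2 * (1 + e * m * v) := by
    have := div_nonneg (quad (a1 - l * c * m * a1) l) hN.le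
    rw [show A1 = a1 * N by rw [ha1, div_mul_cancel₀ _ hN.ne'],
      show C = (v + m * a1 ^ 2) * N by rw [hv, sub_add_cancel, div_mul_cancel₀ _ hN.ne']] at this
    refine this.trans (le_of_eq ?_)
    rw [← hce]
    field_simp
    ring
  have h1 : l ^ 2 * (1 + e * m * v) ≤ l ^ 2 * M :=
    mul_le_mul_of_nonneg_left (by nlinarith [mul_le_mul_of_nonneg_left hvle (mul_nonneg he hm)])
      (sq_nonneg l)
  have h2 : l ^ 2 * M = e / M * v ^ 2 ∧ l * c * v = e / M * v ^ 2 := by
    rw [hl, ← hce]
    constructor <;> field_simp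
  linarith

end Vale.Agent.P146.Gap
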