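import Vale.Agent.P146.Gap.Chain
import Vale.Agent.P166F.Energy
import Vale.Agent.P166F.Low.Formula.Levels
import Vale.Agent.P166F.Up.StepLaw

/-!
P146: a smooth upper value of the formula at the semicircle law, exact below the edge.
-/

namespace Vale.Agent.P146.Gap

open MeasureTheory Set Filter
open Vale.Agent.P157.Low Vale.Agent.P166F
open scoped Topology

variable {k : ℕ} {β : ℝ} {m e p q : Fin (k + 1) → ℝ}

/-- Parameters with the first overlap pinned at zero, ties allowed. -/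
structure Weak (m p : Fin (k + 1) → ℝ) : Prop where
  mzero : m 0 = 0
  mmono : Monotone m
  mle : ∀ l, m l ≤ 1
  pzero : p 0 = 0
  pmono : Monotone p
  ple : ∀ l, p l ≤ 1

lemma Weak.mnonneg (h : Weak m p) (l : Fin (k + 1)) : 0 ≤ m l := h.mzero ▸ h.mmono (Fin.zero_le l)

lemma Weak.pnonneg (h : Weak m p) (l : Fin (k + 1)) : 0 ≤ p l := h.pzero ▸ h.pmono (Fin.zero_le l)

lemma Weak.mass (h : Weak m p) (l : Fin (k + 1)) : 0 ≤ lmass m l := by
  rw [lmass]
  split_ifs with hl
  · exact sub_nonneg.2 (h.mmono (Fin.mk_le_mk.2 (Nat.le_succ _)))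
  · exact sub_nonneg.2 (h.mle l)

lemma Weak.field (h : Weak m p) (β : ℝ) :
    Monotone (fun l => β ^ 2 * p l) ∧ ∀ l, 0 ≤ β ^ 2 * p l :=
  ⟨fun _ _ hij => mul_le_mul_of_nonneg_left (h.pmono hij) (sq_nonneg β),
    fun l => mul_nonneg (sq_nonneg β) (h.pnonneg l)⟩

/-- The upper value at the overlaps `p`, the fields being `β² p`. -/
noncomputable def gVal (β : ℝ) (m p : Fin (k + 1) → ℝ) : ℝ :=
  xbar m (fun l => β ^ 2 * p l) + β ^ 2 / 4 * (1 + ∑ l, lmass m l * p l ^ 2)

lemma integral_max {c : ℝ} (hc : c ∈ Icc (0 : ℝ) 1) :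
    ∫ s in (0 : ℝ)..1, max s c = (1 + c ^ 2) / 2 := by
  have hi : ∀ a b : ℝ, IntervalIntegrable (fun s => max s c) volume a b :=
    fun a b => (continuous_id.max continuous_const).intervalIntegrable _ _
  have e1 : ∫ s in (0 : ℝ)..c, max s c = ∫ _ in (0 : ℝ)..c, c :=
    intervalIntegral.integral_congr fun s hs => by
      rw [uIcc_of_le hc.1] at hs
      exact max_eq_right hs.2
  have e2 : ∫ s in c..1, max s c = ∫ s in c..1, s :=
    intervalIntegral.integral_congr fun s hs => by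
      rw [uIcc_of_le hc.2] at hs
      exact max_eq_left hs.1
  rw [← intervalIntegral.integral_add_adjacent_intervals (hi 0 c) (hi c 1), e1, e2, integral_id,
    intervalIntegral.integral_const, smul_eq_mul]
  ring

lemma integral_tsum (hm : m 0 = 0) (hp : ∀ l, p l ∈ Icc (0 : ℝ) 1) :
    ∫ s in (0 : ℝ)..1, Low.tsum' m p s = (1 - ∑ l, lmass m l * p l ^ 2) / 2 := by
  unfold Low.tsum'
  rw [intervalIntegral.integral_finsetSum fun l _ => Continuous.intervalIntegrable (by fun_prop) _ _]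
  have e : ∀ l, ∫ s in (0 : ℝ)..1, lmass m l * (1 - max s (p l)) =
      lmass m l / 2 - lmass m l * p l ^ 2 / 2 := fun l => by
    rw [intervalIntegral.integral_const_mul, intervalIntegral.integral_sub intervalIntegrable_const
      ((show Continuous fun s : ℝ => max s (p l) by fun_prop).intervalIntegrable _ _),
      integral_max (hp l),
      intervalIntegral.integral_const, sub_zero, one_smul]
    ring
  rw [Finset.sum_congr rfl fun l _ => e l, Finset.sum_sub_distrib, ← Finset.sum_div,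
    ← Finset.sum_div, Low.sum_lmass_one hm, ← sub_div]

variable {μ : Measure ℝ} (hle : ∀ w, 0 < w → rtr μ w ≤ w) (heq : ∀ w, 0 < w → w ≤ 1 → rtr μ w = w)
  (h0 : rtr μ 0 = 0)

include hle h0 in
lemma energy_le (hβ : 0 ≤ β) (hm : Levels m) (hp : Path p) :
    energy μ β (stepLaw m p) ≤ β ^ 2 / 4 * (1 - ∑ l, lmass m l * p l ^ 2) := by
  have hp' : ∀ l, p l ∈ Icc (0 : ℝ) 1 := fun l => ⟨hp.nonneg l, (hp.ltOne l).le⟩
  have key : ∫ s in (0 : ℝ)..1, β * rtr μ (β * tail (stepLaw m p) s) ≤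
      β ^ 2 * ((1 - ∑ l, lmass m l * p l ^ 2) / 2) := by
    rw [← integral_tsum hm.zero hp', ← intervalIntegral.integral_const_mul]
    have hT : ∀ s ∈ Icc (0 : ℝ) 1, 0 ≤ Low.tsum' m p s := fun s hs =>
      (Low.tsum_mem hm hs fun l => (hp' l).2).1
    by_cases hi : IntervalIntegrable (fun s => β * rtr μ (β * tail (stepLaw m p) s)) volume 0 1
    · refine intervalIntegral.integral_mono_on zero_le_one hi
        (((Low.continuous_tsum m p).const_mul _).intervalIntegrable _ _) fun s hs => ?_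
      rw [Low.tail_stepLaw hm, sq, mul_assoc]
      refine mul_le_mul_of_nonneg_left ?_ hβ
      rcases (mul_nonneg hβ (hT s hs)).eq_or_lt with h | h
      · rw [← h, h0]
      · exact hle _ h
    · rw [intervalIntegral.integral_undef hi]
      exact intervalIntegral.integral_nonneg zero_le_one fun s hs => mul_nonneg (sq_nonneg β) (hT s hs)
  rw [energy]
  linarith

include heq h0 in
lemma energy_eq (hβ : 0 ≤ β) (hm : Levels m) (hp : Path p)
    (hT : β * tail (stepLaw m p) 0 ≤ 1) :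
    energy μ β (stepLaw m p) = β ^ 2 / 4 * (1 - ∑ l, lmass m l * p l ^ 2) := by
  have hp' : ∀ l, p l ∈ Icc (0 : ℝ) 1 := fun l => ⟨hp.nonneg l, (hp.ltOne l).le⟩
  rw [Low.tail_stepLaw hm] at hT
  have key : ∫ s in (0 : ℝ)..1, β * rtr μ (β * tail (stepLaw m p) s) =
      β ^ 2 * ((1 - ∑ l, lmass m l * p l ^ 2) / 2) := by
    rw [← integral_tsum hm.zero hp', ← intervalIntegral.integral_const_mul]
    refine intervalIntegral.integral_congr fun s hs => ?_
    rw [uIcc_of_le zero_le_one] at hs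
    show β * rtr μ (β * tail (stepLaw m p) s) = β ^ 2 * Low.tsum' m p s
    rw [Low.tail_stepLaw hm, sq, mul_assoc]
    congr 1
    have h1 : Low.tsum' m p s ≤ Low.tsum' m p 0 := Finset.sum_le_sum fun l _ =>
      mul_le_mul_of_nonneg_left (sub_le_sub_left (max_le_max hs.1 le_rfl) _) (lmass_nonneg hm l)
    rcases (mul_nonneg hβ (Low.tsum_mem hm hs fun l => (hp' l).2).1).eq_or_lt with h | h
    · rw [← h, h0]
    · exact heq _ h ((mul_le_mul_of_nonneg_left h1 hβ).trans hT)
  rw [energy, key]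
  ring

include hle h0 in
/-- The formula at the slopes of `β² p` is below the upper value. -/
theorem value_slope_le (hβ : 0 ≤ β) (hm : Levels m)
    (hp : Monotone (fun l => β ^ 2 * p l) ∧ ∀ l, 0 ≤ β ^ 2 * p l) :
    energy μ β (stepLaw m (slopeSq m fun l => β ^ 2 * p l)) +
      entS m (slopeSq m fun l => β ^ 2 * p l) ≤ gVal β m p := by
  have hP : Path (slopeSq m fun l => β ^ 2 * p l) := chainSlope_eq m (fun l => β ^ 2 * p l) ▸
    chainSlope_path hm hp
  have hE : entS m (slopeSq m fun l => β ^ 2 * p l) = xbar m (fun l => β ^ 2 * p l) +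
      pairing m (slopeSq m fun l => β ^ 2 * p l) fun l => β ^ 2 * p l :=
    chainSlope_eq m (fun l => β ^ 2 * p l) ▸ entS_chainSlope hm hp
  have h1 := energy_le hle h0 hβ hm hP
  rw [hE, gVal, pairing]
  set f := slopeSq m fun l => β ^ 2 * p l
  have e : ∑ l, lmass m l * f l * (β ^ 2 * p l) = β ^ 2 * ∑ l, lmass m l * f l * p l := by
    rw [Finset.mul_sum]; exact Finset.sum_congr rfl fun l _ => by ring
  have e2 : ∑ l, lmass m l * (p l - f l) ^ 2 = ∑ l, lmass m l * p l ^ 2 -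
      2 * ∑ l, lmass m l * f l * p l + ∑ l, lmass m l * f l ^ 2 := by
    rw [Finset.mul_sum, ← Finset.sum_sub_distrib, ← Finset.sum_add_distrib]
    exact Finset.sum_congr rfl fun l _ => by ring
  have h2 : 0 ≤ β ^ 2 / 4 * ∑ l, lmass m l * (p l - f l) ^ 2 :=
    mul_nonneg (by positivity) (Finset.sum_nonneg fun l _ => mul_nonneg (lmass_nonneg hm l) (sq_nonneg _))
  rw [e2] at h2
  rw [e]
  linarith

include heq h0 in
/-- Below the edge the upper value is below the formula. -/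
theorem gVal_le_value (hβ : 0 ≤ β) (hm : Levels m) (hp : Path p)
    (hT : β * tail (stepLaw m p) 0 ≤ 1) :
    gVal β m p ≤ energy μ β (stepLaw m p) + entS m p := by
  have hb : (fun l => β ^ 2 * p l) ∈ fieldPaths k :=
    ⟨fun _ _ hij => mul_le_mul_of_nonneg_left (hp.mono hij) (sq_nonneg β),
      fun l => mul_nonneg (sq_nonneg β) (hp.nonneg l)⟩
  have h1 := le_entS hm hp hb
  have e : ∑ l, lmass m l * p l * (β ^ 2 * p l) = β ^ 2 * ∑ l, lmass m l * p l ^ 2 := by
    rw [Finset.mul_sum]; exact Finset.sum_congr rfl fun l _ => by ring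
  rw [pairing, e] at h1
  rw [energy_eq heq h0 hβ hm hp hT, gVal]
  linarith

/-! ### Continuity -/

lemma slopeSq_unit (hm : ∀ l, 0 ≤ m l) {a : Fin (k + 1) → ℝ} (ha : ∀ l, 0 ≤ incr a l)
    (l : Fin (k + 1)) : 0 ≤ slopeSq m a l ∧ slopeSq m a l ≤ 1 := by
  obtain ⟨S⟩ := exists_stage' (Seg.still hm ha) (k + 1) le_rfl
  have := S.g_mem 0 l 0
  rwa [dT_zero ha] at this

lemma abs_dirDeriv_le (hm : ∀ l, 0 ≤ m l) {a v : Fin (k + 1) → ℝ} (ha : ∀ l, 0 ≤ incr a l) :
    |dirDeriv m a v| ≤ ∑ l, |lmass m l| * |v l| := by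
  rw [dirDeriv, abs_div, abs_neg, abs_two]
  refine (div_le_self (abs_nonneg _) one_le_two).trans
    ((Finset.abs_sum_le_sum_abs _ _).trans (Finset.sum_le_sum fun l _ => ?_))
  rw [abs_mul, abs_mul]
  refine mul_le_mul_of_nonneg_right (mul_le_of_le_one_right (abs_nonneg _) ?_) (abs_nonneg _)
  rw [abs_of_nonneg (slopeSq_unit hm ha l).1]
  exact (slopeSq_unit hm ha l).2

lemma abs_xbar_field (hm : ∀ l, 0 ≤ m l) {a b : Fin (k + 1) → ℝ}
    (ha : Monotone a ∧ ∀ l, 0 ≤ a l) (hb : Monotone b ∧ ∀ l, 0 ≤ b l) :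
    |xbar m b - xbar m a| ≤ ∑ l, |lmass m l| * |b l - a l| := by
  obtain ⟨hf, -, hd⟩ := xbar_line hm ha hb
  obtain ⟨t, ht, he⟩ := exists_hasDerivAt_eq_slope _ _ one_pos hf hd
  simp only [one_mul, zero_mul, add_zero, sub_zero, div_one, add_sub_cancel] at he
  rw [← he]
  refine abs_dirDeriv_le hm (incr_nonneg ⟨fun i j hij => ?_, fun l => ?_⟩)
  · nlinarith [ha.1 hij, hb.1 hij, ht.1, ht.2]
  · nlinarith [ha.2 l, hb.2 l, ht.1, ht.2]

lemma abs_xbar_exps (hm : ∀ l, 0 ≤ m l) (he : ∀ l, 0 ≤ e l) {a : Fin (k + 1) → ℝ} {M : ℝ}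
    (ha : Monotone a ∧ ∀ l, 0 ≤ a l) (hM : ∀ l, a l ≤ M) :
    |xbar m a - xbar e a| ≤ (k + 1 : ℝ) * (M / 2) * ∑ l, |m l - e l| := by
  have hd : ∀ l, 0 ≤ incr a l ∧ incr a l ≤ M := fun l => ⟨incr_nonneg ha l, by
    rw [incr]
    split_ifs with h
    · simpa using hM l
    · linarith [hM l, ha.2 ⟨(l : ℕ) - 1, by omega⟩]⟩
  have := potUp_lip he hd hm (k + 1) le_rfl 0
  simp only [xbar, sub_sub_sub_cancel_right]
  push_cast at this
  exact this

lemma continuousOn_gVal (β : ℝ) :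
    ContinuousOn (fun x : (Fin (k + 1) → ℝ) × (Fin (k + 1) → ℝ) => gVal β x.1 x.2)
      {x | Weak x.1 x.2} := by
  have hlm : Continuous fun x : (Fin (k + 1) → ℝ) × (Fin (k + 1) → ℝ) => lmass x.1 :=
    continuous_pi fun l => by
      unfold lmass
      split_ifs <;> fun_prop
  intro x hx
  refine (ContinuousWithinAt.add ?_ ((continuous_const.mul (continuous_const.add
    (continuous_finsetSum _ fun l _ => ((continuous_apply l).comp hlm).mul
      (((continuous_apply l).comp continuous_snd).pow 2)))).continuousWithinAt))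
  rw [ContinuousWithinAt, tendsto_iff_norm_sub_tendsto_zero]
  refine squeeze_zero' (Eventually.of_forall fun y => norm_nonneg _) ?_
    (g := fun y : (Fin (k + 1) → ℝ) × (Fin (k + 1) → ℝ) =>
      (k + 1 : ℝ) * (β ^ 2 / 2) * ∑ l, |y.1 l - x.1 l| +
        ∑ l, |lmass x.1 l| * |β ^ 2 * y.2 l - β ^ 2 * x.2 l|) ?_
  · filter_upwards [self_mem_nhdsWithin] with y hy
    rw [Real.norm_eq_abs]
    have hy' : Weak y.1 y.2 := hy
    have h1 := abs_xbar_exps (M := β ^ 2) hy'.mnonneg hx.mnonneg (hy'.field β)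
      fun l => mul_le_of_le_one_right (sq_nonneg β) (hy'.ple l)
    have h2 := abs_xbar_field (b := fun l => β ^ 2 * y.2 l) hx.mnonneg (hx.field β) (hy'.field β)
    exact (abs_sub_le _ _ _).trans (add_le_add h1 h2)
  · refine Tendsto.mono_left ?_ nhdsWithin_le_nhds
    refine Continuous.tendsto' ?_ x 0 (by simp)
    fun_prop

/-! ### First variation -/

/-- At a minimiser the first variation in the overlaps is nonnegative. -/
theorem first_order (h : Weak m p) (hq : Weak m q)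
    (hmin : ∀ q', Weak m q' → gVal β m p ≤ gVal β m q') :
    0 ≤ β ^ 2 * ∑ l, lmass m l * (p l - slopeSq m (fun i => β ^ 2 * p i) l) * (q l - p l) := by
  obtain ⟨hf, hg, hd⟩ := xbar_line h.mnonneg (h.field β) (hq.field β)
  set δ := fun l => q l - p l
  set line := fun (t : ℝ) i => β ^ 2 * p i + t * (β ^ 2 * q i - β ^ 2 * p i)
  have hline : ∀ t, (fun i => β ^ 2 * (p i + t * δ i)) = line t := fun t => funext fun i => by
    simp only [line, δ]; ring
  set φ := fun t => xbar m (line t) + β ^ 2 / 4 * (1 + ∑ l, lmass m l * (p l + t * δ l) ^ 2)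
  set ψ := fun t => dirDeriv m (line t) (fun i => β ^ 2 * q i - β ^ 2 * p i) +
    β ^ 2 / 4 * ∑ l, lmass m l * (2 * (p l + t * δ l) * δ l)
  have hψ : ∀ t ∈ Ioo (0 : ℝ) 1, HasDerivAt φ (ψ t) t := fun t ht => by
    refine (hd t ht).add (((HasDerivAt.fun_sum (u := Finset.univ) (A := fun l s =>
      lmass m l * (p l + s * δ l) ^ 2) (A' := fun l => lmass m l * (2 * (p l + t * δ l) * δ l))
      fun l _ => ?_).const_add 1).const_mul _)
    refine ((((hasDerivAt_id' t).mul_const (δ l)).const_add (p l)).fun_pow 2).const_mul _ |>.congr_deriv ?_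
    ring
  have hφc : ContinuousOn φ (Icc 0 1) := hf.add (Continuous.continuousOn (by fun_prop))
  have hψc : ContinuousOn ψ (Icc 0 1) := hg.add (Continuous.continuousOn (by fun_prop))
  suffices h0 : 0 ≤ ψ 0 by
    refine le_of_le_of_eq (mul_nonneg two_pos.le h0) ?_
    simp only [ψ, line, dirDeriv, δ, zero_mul, add_zero]
    rw [mul_add, mul_div_cancel₀ _ two_ne_zero, ← Finset.sum_neg_distrib, Finset.mul_sum,
      Finset.mul_sum, Finset.mul_sum, ← Finset.sum_add_distrib]
    exact Finset.sum_congr rfl fun l _ => by ring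
  by_contra hneg
  obtain ⟨ρ, hρ, hball⟩ := Metric.continuousWithinAt_iff.1 (hψc 0 ⟨le_rfl, zero_le_one⟩) (-ψ 0)
    (by linarith [not_le.1 hneg])
  set T := min (ρ / 2) 1
  have hT : 0 < T := lt_min (half_pos hρ) one_pos
  have hT1 : T ≤ 1 := min_le_right _ _
  obtain ⟨t, ht, he⟩ := exists_hasDerivAt_eq_slope φ ψ hT (hφc.mono (Icc_subset_Icc le_rfl hT1))
    fun s hs => hψ s ⟨hs.1, hs.2.trans_le hT1⟩
  have htT : dist t 0 < ρ := by
    rw [Real.dist_eq, sub_zero, abs_of_pos ht.1]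
    linarith [ht.2, min_le_left (ρ / 2) 1]
  have hneg' : ψ t < 0 := by
    have := hball ⟨ht.1.le, ht.2.le.trans hT1⟩ htT
    rw [Real.dist_eq] at this
    linarith [(abs_lt.1 this).2]
  have hw : Weak m fun i => p i + T * δ i := by
    refine ⟨h.mzero, h.mmono, h.mle, by simp [δ, h.pzero, hq.pzero], fun i j hij => ?_, fun l => ?_⟩
    · simp only [δ]; nlinarith [h.pmono hij, hq.pmono hij]
    · simp only [δ]; nlinarith [h.ple l, hq.ple l]
  have hge := hmin _ hw
  have e1 : gVal β m (fun i => p i + T * δ i) = φ T := by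
    simp only [gVal, φ, hline T]
  have e2 : gVal β m p = φ 0 := by simp [gVal, φ, line]
  rw [e1, e2] at hge
  rw [he, sub_zero] at hneg'
  linarith [(div_neg_iff.1 hneg').resolve_left fun h => not_lt.2 hT.le h.2]

end Vale.Agent.P146.Gap
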