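import Vale.Agent.P146.Gap.Core
import Vale.Agent.P146.Gap.Value

/-!
P146: no gap at zero at the minimisers of the upper value.
-/

namespace Vale.Agent.P146.Gap

open MeasureTheory Set Filter
open Vale.Agent.P157.Low Vale.Agent.P166F

variable {k : ℕ} {β : ℝ} {m p : Fin (k + 1) → ℝ}

lemma antitone_fam {d : Fin (k + 1) → ℝ} (hm : ∀ l, 0 ≤ m l) (hd : ∀ l, 0 ≤ d l) :
    ∀ n, AntitoneOn ((fam m d hm n).U2 0) (Ici 0)
  | 0 => antitone_spin 0
  | n + 1 => by
    by_cases hn : n ≤ k
    · simp only [fam, hn, dite_true, stepC, Fam.step]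
      exact antitone_step (fam m d hm n) (hm _) (hd _) (antitone_fam hm hd n)
    · simp only [fam, hn, dite_false]
      exact antitone_fam hm hd n

lemma potUp_congr {e d : Fin (k + 1) → ℝ} : ∀ n, (∀ j : Fin (k + 1), k + 1 ≤ (j : ℕ) + n → m j = e j) →
    potUp m d lcosh n = potUp e d lcosh n
  | 0, _ => rfl
  | n + 1, h => by
    have ih := potUp_congr (d := d) n fun j hj => h j (by omega)
    by_cases hn : n ≤ k
    · simp [potUp, hn, ih, h ⟨k - n, by omega⟩ (by simp only; omega)]
    · simp [potUp, hn, ih]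

lemma slopeSq_lt_one (hm : ∀ l, 0 ≤ m l ∧ m l ≤ 1) (a : Fin (k + 1) → ℝ) (l : Fin (k + 1)) :
    slopeSq m a l < 1 := by
  rw [slopeSq_eq hm a 0 l]
  exact cSq_lt_one _ _ _ (unitExps_expsList hm) 0

lemma slope_at_zero (h : Weak m p) {l : Fin (k + 1)} (hl : p l = 0) :
    slopeSq m (fun i => β ^ 2 * p i) l = 0 := by
  have hp : ∀ j ≤ l, p j = 0 := fun j hj =>
    le_antisymm ((h.pmono hj).trans hl.le) (h.pnonneg j)
  have hz : ∀ j ≤ l, incr (fun i => β ^ 2 * p i) j = 0 := fun j hj => by
    rw [incr]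
    split_ifs with h0
    · simp [hp j hj]
    · simp [hp j hj, hp ⟨(j : ℕ) - 1, by omega⟩ ((Fin.mk_le_mk.2 (Nat.sub_le _ _)).trans hj)]
  rw [(root h.mnonneg l (incr_nonneg (h.field β)) fun j hj => hz j hj.le).2.1, hz l le_rfl,
    insStep_zero_var]
  simp [odd_zero]

/-- The curvature at the root. -/
noncomputable def dRoot (β : ℝ) (m p : Fin (k + 1) → ℝ) : ℝ :=
  1 - ∑ l, lmass m l * slopeSq m (fun i => β ^ 2 * p i) l

lemma dRoot_nonneg (h : Weak m p) : 0 ≤ dRoot β m p := by
  refine sub_nonneg.2 ((Finset.sum_le_sum fun l _ => mul_le_of_le_one_right (h.mass l)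
    (slopeSq_unit h.mnonneg (incr_nonneg (h.field β)) l).2).trans_eq ?_)
  exact Low.sum_lmass_one h.mzero

/-! ### A minimiser with weightless levels below the first positive atom cleared -/

section pinned

variable {i : Fin (k + 1)} (hw : Weak m p) (hi0 : 0 < i) (hlow : ∀ l < i, p l = 0)
  (hli : 0 < lmass m i) (hq : 0 < p i)
  (hmin : ∀ e q : Fin (k + 1) → ℝ, Weak e q → gVal β m p ≤ gVal β e q)

include hi0 hlow in
lemma incr_pin : (∀ l < i, incr (fun j => β ^ 2 * p j) l = 0) ∧
    incr (fun j => β ^ 2 * p j) i = β ^ 2 * p i := by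
  refine ⟨fun l hl => ?_, ?_⟩
  · rw [incr]
    split_ifs with h0
    · simp [hlow l hl]
    · simp [hlow l hl, hlow ⟨(l : ℕ) - 1, by omega⟩
        ((Fin.mk_le_mk.2 (Nat.sub_le _ _)).trans_lt hl)]
  · have h1 : 1 ≤ (i : ℕ) := by simpa [Fin.lt_def, Nat.one_le_iff_ne_zero, Nat.pos_iff_ne_zero] using hi0
    rw [incr, dif_neg (by omega)]
    have : (⟨(i : ℕ) - 1, by omega⟩ : Fin (k + 1)) < i := Fin.lt_def.2 (by simp only; omega)
    simp [hlow _ this]

include hw hi0 hlow hli hq hmin in
lemma slope_ge (hβ : 1 ≤ β) : p i ≤ slopeSq m (fun j => β ^ 2 * p j) i := by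
  have hw2 : Weak m (Function.update p i 0) := by
    refine ⟨hw.mzero, hw.mmono, hw.mle, ?_, fun x y hxy => ?_, fun l => ?_⟩
    · rw [Function.update_of_ne hi0.ne, hw.pzero]
    · rcases eq_or_ne x i with rfl | hx
      · rw [Function.update_self]
        rcases eq_or_ne y x with rfl | hy
        · rw [Function.update_self]
        · rw [Function.update_of_ne hy]; exact hw.pnonneg y
      · rw [Function.update_of_ne hx]
        rcases eq_or_ne y i with rfl | hy
        · rw [Function.update_self, hlow x (hxy.lt_of_ne hx)]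
        · rw [Function.update_of_ne hy]; exact hw.pmono hxy
    · rcases eq_or_ne l i with rfl | hl
      · simp
      · simp [Function.update_of_ne hl, hw.ple l]
  have := first_order hw hw2 fun r hr => hmin m r hr
  rw [Finset.sum_eq_single i (fun l _ hl => by rw [Function.update_of_ne hl, sub_self, mul_zero])
    (by simp), Function.update_self] at this
  by_contra hfq
  have h3 : 0 < lmass m i * (p i - slopeSq m (fun j => β ^ 2 * p j) i) * p i := by
    have := sub_pos.2 (not_le.1 hfq)
    positivity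
  have h4 := nonneg_of_mul_nonneg_right this (by positivity : 0 < β ^ 2)
  linarith

include hw hi0 hlow hli hq hmin in
lemma slope_le (hβ : 1 ≤ β) : slopeSq m (fun j => β ^ 2 * p j) i ≤ p i := by
  set a := fun j => β ^ 2 * p j
  set f := slopeSq m a i
  set q := p i
  have hq1 : q < 1 := (slope_ge hw hi0 hlow hli hq hmin hβ).trans_lt
    (slopeSq_lt_one (fun l => ⟨hw.mnonneg l, hw.mle l⟩) a i)
  obtain ⟨-, -, -, hblock⟩ := root hw.mnonneg i (incr_nonneg (hw.field β)) (incr_pin hi0 hlow).1
  set T := insert (1 : ℝ) ((Finset.univ.image p).filter fun x => q < x)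
  set c := T.min' (Finset.insert_nonempty _ _)
  have hc : ∀ x ∈ T, q < x := fun x hx => by
    rcases Finset.mem_insert.1 hx with rfl | hx
    · exact hq1
    · exact (Finset.mem_filter.1 hx).2
  have hcq : q < c := hc c (Finset.min'_mem _ _)
  have hc1 : c ≤ 1 := Finset.min'_le _ _ (Finset.mem_insert_self _ _)
  have hcp : ∀ l, q < p l → c ≤ p l := fun l hl => Finset.min'_le _ _
    (Finset.mem_insert_of_mem
      (Finset.mem_filter.2 ⟨Finset.mem_image_of_mem p (Finset.mem_univ l), hl⟩))
  set r := fun l => if l < i then 0 else max (p l) c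
  have hr : Weak m r := by
    refine ⟨hw.mzero, hw.mmono, hw.mle, if_pos hi0, fun x y hxy => ?_, fun l => ?_⟩
    · simp only [r]
      by_cases hy : y < i
      · rw [if_pos hy, if_pos (hxy.trans_lt hy)]
      · rw [if_neg hy]
        split_ifs
        · exact (hw.pnonneg y).trans (le_max_left _ _)
        · exact max_le_max (hw.pmono hxy) le_rfl
    · simp only [r]; split_ifs <;> simp [hw.ple l, hc1]
  have hterm : ∀ l, lmass m l * (p l - slopeSq m a l) * (r l - p l) =
      (if ¬ l < i ∧ p l = q then lmass m l else 0) * ((q - f) * (c - q)) := fun l => by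
    by_cases hl : l < i
    · rw [if_neg (fun hh => hh.1 hl), show r l = 0 from if_pos hl, hlow l hl]; ring
    · rw [show r l = max (p l) c from if_neg hl]
      rcases (hw.pmono (not_lt.1 hl)).eq_or_lt with e | hlt
      · rw [if_pos ⟨hl, e.symm⟩, ← e, max_eq_right hcq.le]
        have hs : slopeSq m a l = f := by
          rcases (not_lt.1 hl).eq_or_lt with e' | hil
          · rw [← e']
          refine hblock l hil fun j h1 h2 => ?_
          have h1' : 1 ≤ (j : ℕ) := by have := Fin.lt_def.1 h1; omega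
          rw [incr, dif_neg (by omega)]
          have hj : ∀ x, i ≤ x → x ≤ l → p x = q := fun x x1 x2 =>
            le_antisymm ((hw.pmono x2).trans e.symm.le) (hw.pmono x1)
          simp [hj j h1.le h2, hj ⟨(j : ℕ) - 1, by omega⟩
            (Fin.le_def.2 (by have := Fin.lt_def.1 h1; simp only; omega))
            ((Fin.mk_le_mk.2 (Nat.sub_le _ _)).trans h2)]
        rw [hs]
        ring
      · rw [if_neg (fun hh => hlt.ne' hh.2), max_eq_left (hcp l hlt)]
        ring
  have := first_order hw hr fun r' hr' => hmin m r' hr'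
  rw [Finset.sum_congr rfl fun l _ => hterm l, ← Finset.sum_mul] at this
  have hM : 0 < ∑ l, if ¬ l < i ∧ p l = q then lmass m l else 0 :=
    Finset.sum_pos' (fun l _ => by split_ifs <;> simp [hw.mass l])
      ⟨i, Finset.mem_univ i, by rw [if_pos ⟨lt_irrefl i, rfl⟩]; exact hli⟩
  by_contra hfq
  have h3 : 0 < (∑ l, if ¬ l < i ∧ p l = q then lmass m l else 0) * ((f - q) * (c - q)) :=
    mul_pos hM (mul_pos (sub_pos.2 (not_le.1 hfq)) (sub_pos.2 hcq))
  have h4 := nonneg_of_mul_nonneg_right this (by positivity : 0 < β ^ 2)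
  linarith

include hw hi0 hlow hli hq hmin in
lemma mid_lt (hβ : 1 ≤ β) (hlt : β * dRoot β m p < 1) :
    ∫ t in (0 : ℝ)..1, sqMid (fam m (incr fun j => β ^ 2 * p j) hw.mnonneg (k - i)) (m i) (m i)
      (β ^ 2 * p i) t 0 < p i / 2 := by
  have hd := incr_nonneg (hw.field β)
  obtain ⟨hincr, hA⟩ := incr_pin (β := β) hi0 hlow
  have hfq : slopeSq m (fun j => β ^ 2 * p j) i = p i :=
    le_antisymm (slope_le hw hi0 hlow hli hq hmin hβ) (slope_ge hw hi0 hlow hli hq hmin hβ)
  obtain ⟨-, hf, hD, -⟩ := root hw.mnonneg i hd hincr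
  rw [hA] at hf hD
  rw [hfq] at hf
  set F := fam m (incr fun j => β ^ 2 * p j) hw.mnonneg (k - i)
  set A := β ^ 2 * p i with hAdef
  have hA0 : 0 < A := by positivity
  have hD2 : insStep (m i) A (F.U 0) (F.th2 (m i) 0) 0 ^ 2 * A < p i := by
    rw [← hD]
    show dRoot β m p ^ 2 * A < p i
    rw [hAdef, ← mul_assoc, ← mul_pow]
    exact mul_lt_of_lt_one_left hq (pow_lt_one₀ (mul_nonneg (dRoot_nonneg hw) (by linarith))
      (by rw [mul_comm]; exact hlt) two_ne_zero)
  have hmid : ∀ t ∈ Ioo (0 : ℝ) 1, sqMid F (m i) (m i) A t 0 < p i * t := by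
    intro t ht
    have hcore := core F (antitone_fam hw.mnonneg hd _) (hw.mnonneg i) (hw.mle i) hA0
      (hf ▸ hD2) (mul_pos hA0 ht.1) (mul_lt_of_lt_one_right hA0 ht.2)
    rw [← hf, show A - A * t = A * (1 - t) by ring] at hcore
    refine (mul_lt_mul_iff_left₀ hA0).1 (hcore.trans_eq ?_)
    ring
  have hcont := continuous_sqMid_time F (hw.mnonneg i) (hw.mnonneg i) hA0.le
  have e : ∫ t in (0 : ℝ)..1, p i * t = p i / 2 := by
    rw [intervalIntegral.integral_const_mul, integral_id]; ring
  rw [← e]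
  refine intervalIntegral.integral_lt_integral_of_continuousOn_of_le_of_exists_lt zero_lt_one
    hcont.continuousOn (by fun_prop) (fun t ht => ?_) ⟨1 / 2, by norm_num, hmid _ (by norm_num)⟩
  rcases ht.2.eq_or_lt with rfl | ht1
  · simp only [sqMid, sub_self, mul_zero, mul_one, potStep_zero_var, insStep_zero_var]
    rw [← hf]
  · exact (hmid t ⟨ht.1, ht1⟩).le

include hw hi0 in
lemma weak_bump {δ : ℝ} (hδ : 0 ≤ δ) (hδ1 : δ ≤ lmass m i) :
    Weak (Function.update m i (m i + δ)) p := by
  have hnext : ∀ y, i < y → m i + δ ≤ m y := fun y hy => by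
    have hlt : (i : ℕ) < k := by have := Fin.lt_def.1 hy; have := y.2; omega
    rw [lmass, dif_pos hlt] at hδ1
    have := hw.mmono (show (⟨(i : ℕ) + 1, by omega⟩ : Fin (k + 1)) ≤ y from
      Fin.le_def.2 (by simp only; have := Fin.lt_def.1 hy; omega))
    linarith
  refine ⟨?_, fun x y hxy => ?_, fun l => ?_, hw.pzero, hw.pmono, hw.ple⟩
  · rw [Function.update_of_ne hi0.ne, hw.mzero]
  · rcases eq_or_ne y i with rfl | hy
    · rw [Function.update_self]
      rcases eq_or_ne x y with rfl | hx
      · rw [Function.update_self]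
      · rw [Function.update_of_ne hx]; linarith [hw.mmono hxy]
    · rw [Function.update_of_ne hy]
      rcases eq_or_ne x i with rfl | hx
      · rw [Function.update_self]; exact hnext y (hxy.lt_of_ne hy.symm)
      · rw [Function.update_of_ne hx]; exact hw.mmono hxy
  · rcases eq_or_ne l i with rfl | hl
    · rw [Function.update_self]
      rw [lmass] at hδ1
      split_ifs at hδ1 with hh
      · linarith [hw.mle ⟨(l : ℕ) + 1, by omega⟩]
      · linarith
    · rw [Function.update_of_ne hl]; exact hw.mle l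

include hlow in
lemma sum_bump (δ : ℝ) : ∑ l, lmass (Function.update m i (m i + δ)) l * p l ^ 2 =
    ∑ l, lmass m l * p l ^ 2 - δ * p i ^ 2 := by
  have he : ∀ l, lmass (Function.update m i (m i + δ)) l * p l ^ 2 =
      lmass m l * p l ^ 2 - if l = i then δ * p i ^ 2 else 0 := by
    intro l
    rcases lt_trichotomy l i with hl | rfl | hl
    · rw [if_neg hl.ne, hlow l hl]; ring
    · rw [if_pos rfl]
      simp only [lmass, Function.update_self]
      split_ifs with hh
      · rw [Function.update_of_ne (Fin.ne_of_val_ne (by simp only; omega))]; ring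
      · ring
    · rw [if_neg hl.ne']
      simp only [lmass, Function.update_of_ne hl.ne']
      split_ifs with hh
      · rw [Function.update_of_ne
          (Fin.ne_of_val_ne (by simp only; have := Fin.lt_def.1 hl; omega))]
        ring
      · ring
  rw [Finset.sum_congr rfl fun l _ => he l, Finset.sum_sub_distrib, Finset.sum_ite_eq',
    if_pos (Finset.mem_univ i)]

include hw hi0 hlow hli hq hmin in
/-- Otherwise moving mass to the pinned atom lowers the value. -/
lemma pinned_gap (hβ : 1 ≤ β) : 1 ≤ β * dRoot β m p := by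
  by_contra hlt
  have hint := mid_lt hw hi0 hlow hli hq hmin hβ (not_le.1 hlt)
  have hd := incr_nonneg (hw.field β)
  obtain ⟨hincr, hA⟩ := incr_pin (β := β) hi0 hlow
  obtain ⟨hx, -, -, -⟩ := root hw.mnonneg i hd hincr
  set F := fam m (incr fun j => β ^ 2 * p j) hw.mnonneg (k - i)
  have hA0 : 0 < β ^ 2 * p i := by positivity
  obtain ⟨δ, hδ, hδ1, hgain⟩ := exists_gain F (hw.mnonneg i) hA0 hli hint
  have hwe := weak_bump hw hi0 hδ.le hδ1
  have hcmp := hmin _ p hwe
  obtain ⟨hx', -, -, -⟩ := root hwe.mnonneg i hd hincr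
  have hU : (fam (Function.update m i (m i + δ)) (incr fun j => β ^ 2 * p j) hwe.mnonneg
      (k - i)).U 0 = F.U 0 := by
    rw [(fam_U hwe.mnonneg (k - i) 0).1, (fam_U hw.mnonneg (k - i) 0).1]
    exact potUp_congr _ fun j hj => Function.update_of_ne (fun e' => by subst e'; omega) _ _
  rw [hU, hA, Function.update_self] at hx'
  rw [hA] at hx
  simp only [gVal] at hcmp
  rw [sum_bump hlow, hx, hx'] at hcmp
  linarith

end pinned

/-- **No gap at zero:** at a minimiser, after clearing the weightless levels, `β D ≥ 1`. -/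
theorem minimiser_gap (hβ : 1 ≤ β) (h : Weak m p)
    (hmin : ∀ e q : Fin (k + 1) → ℝ, Weak e q → gVal β m p ≤ gVal β e q) :
    ∃ p', Weak m p' ∧ gVal β m p' = gVal β m p ∧ 1 ≤ β * dRoot β m p' := by
  classical
  by_cases hS : ∃ l, 0 < p l ∧ 0 < lmass m l
  swap
  · refine ⟨p, h, rfl, ?_⟩
    have : dRoot β m p = 1 := by
      rw [dRoot, Finset.sum_eq_zero fun l _ => ?_, sub_zero]
      rcases (h.mass l).eq_or_lt with hl | hl
      · rw [← hl, zero_mul]
      · rw [slope_at_zero h (le_antisymm (not_lt.1 fun hp => hS ⟨l, hp, hl⟩) (h.pnonneg l)),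
          mul_zero]
    rwa [this, mul_one]
  set S := Finset.univ.filter fun l => 0 < p l ∧ 0 < lmass m l
  have hne : S.Nonempty := hS.imp fun l hl => Finset.mem_filter.2 ⟨Finset.mem_univ l, hl⟩
  set i := S.min' hne
  obtain ⟨-, hq, hli⟩ := Finset.mem_filter.1 (S.min'_mem hne)
  have hmass : ∀ l < i, lmass m l * p l = 0 := fun l hl => by
    rcases (h.pnonneg l).eq_or_lt with hp | hp
    · rw [← hp, mul_zero]
    rcases (h.mass l).eq_or_lt with hm | hm
    · rw [← hm, zero_mul]
    exact absurd (S.min'_le l (Finset.mem_filter.2 ⟨Finset.mem_univ l, hp, hm⟩)) (not_le.2 hl)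
  set p' := fun l => if l < i then 0 else p l
  have hi0 : (0 : Fin (k + 1)) < i :=
    (Fin.zero_le i).lt_of_ne fun e => hq.ne' (show p i = 0 by rw [← e]; exact h.pzero)
  have hw : Weak m p' := by
    refine ⟨h.mzero, h.mmono, h.mle, if_pos hi0, fun a b hab => ?_, fun l => ?_⟩
    · simp only [p']
      by_cases hb : b < i
      · rw [if_pos hb, if_pos (hab.trans_lt hb)]
      · rw [if_neg hb]
        split_ifs
        · exact h.pnonneg b
        · exact h.pmono hab
    · simp only [p']; split_ifs <;> simp [h.ple l]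
  have heq : ∀ l, lmass m l * p' l = lmass m l * p l := fun l => by
    simp only [p']; split_ifs with hl
    · rw [mul_zero, hmass l hl]
    · rfl
  have hG : gVal β m p' = gVal β m p := by
    have hz : ∑ l, |lmass m l| * |β ^ 2 * p' l - β ^ 2 * p l| = 0 :=
      Finset.sum_eq_zero fun l _ => by
        rw [← abs_mul, show lmass m l * (β ^ 2 * p' l - β ^ 2 * p l) = 0 by
          linear_combination β ^ 2 * heq l, abs_zero]
    have hx := abs_xbar_field h.mnonneg (h.field β) (hw.field β)
    rw [hz, abs_nonpos_iff, sub_eq_zero] at hx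
    have hs : ∑ l, lmass m l * p' l ^ 2 = ∑ l, lmass m l * p l ^ 2 :=
      Finset.sum_congr rfl fun l _ => by
        linear_combination (p' l + p l) * heq l
    rw [gVal, gVal, hx, hs]
  exact ⟨p', hw, hG, pinned_gap hw hi0 (fun l hl => if_pos hl) hli
    (show 0 < p' i by rw [show p' i = p i from if_neg (lt_irrefl i)]; exact hq)
    (fun e r hr => hG ▸ hmin e r hr) hβ⟩

end Vale.Agent.P146.Gap
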