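import Vale.Agent.P166F.Chain.Tilt

/-!
P146: moments of a Gaussian weight tilted by a potential of linear growth and by `exp (t z)`; the
variance decreases along the tilt when the potential is even with a second derivative decreasing
on the half-line (the inequality of Griffiths, Hurst and Sherman in one variable).
-/

namespace Vale.Agent.P146.Gap

open MeasureTheory Set Filter

/-- An even potential of linear growth with derivatives `h1`, `h2`, the second one decreasing. -/
structure GHS (h h1 h2 : ℝ → ℝ) : Prop where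
  d1 : ∀ z, HasDerivAt h (h1 z) z
  d2 : ∀ z, HasDerivAt h1 (h2 z) z
  even : ∀ z, h (-z) = h z
  growth : ∃ A B, 0 ≤ B ∧ ∀ z, h z ≤ A + B * |z|
  even2 : ∀ z, h2 (-z) = h2 z
  anti : AntitoneOn h2 (Ici 0)

variable {h h1 h2 : ℝ → ℝ}

/-- The tilted weight. -/
noncomputable def tw (h : ℝ → ℝ) (t z : ℝ) : ℝ := Real.exp (-(z ^ 2) / 2 + t * z + h z)

/-- Its moments. -/
noncomputable def mom (h : ℝ → ℝ) (n : ℕ) (t : ℝ) : ℝ := ∫ z, z ^ n * tw h t z

/-- The mean of the tilted law. -/
noncomputable def tmean (h : ℝ → ℝ) (t : ℝ) : ℝ := mom h 1 t / mom h 0 t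

/-- The variance of the tilted law. -/
noncomputable def tvar (h : ℝ → ℝ) (t : ℝ) : ℝ := mom h 2 t / mom h 0 t - tmean h t ^ 2

namespace GHS

variable (hG : GHS h h1 h2)
include hG

lemma cont : Continuous h := continuous_iff_continuousAt.2 fun z => (hG.d1 z).continuousAt

lemma cont_tw (t : ℝ) : Continuous (tw h t) := by
  have := hG.cont
  unfold tw
  fun_prop

lemma bound (T : ℝ) (n : ℕ) : ∃ C, ∀ t, |t| ≤ T → ∀ z,
    |z ^ n * tw h t z| ≤ C * Real.exp (-(1 / 4) * z ^ 2) := by
  obtain ⟨A, B, -, hB⟩ := hG.growth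
  refine ⟨n.factorial * Real.exp (A + (1 + |T| + B) ^ 2), fun t ht z => ?_⟩
  have h1 : |z| ^ n ≤ n.factorial * Real.exp |z| := by
    have := Real.pow_div_factorial_le_exp |z| (abs_nonneg z) n
    rwa [div_le_iff₀ (by positivity), mul_comm] at this
  rw [abs_mul, abs_pow, tw, Real.abs_exp]
  refine (mul_le_mul_of_nonneg_right h1 (Real.exp_pos _).le).trans ?_
  rw [mul_assoc, mul_assoc, ← Real.exp_add, ← Real.exp_add]
  refine mul_le_mul_of_nonneg_left (Real.exp_le_exp.2 ?_) (Nat.cast_nonneg _)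
  have h2 : t * z ≤ |T| * |z| := (le_abs_self _).trans (by
    rw [abs_mul]; exact mul_le_mul_of_nonneg_right (ht.trans (le_abs_self _)) (abs_nonneg z))
  nlinarith [hB z, sq_nonneg (|z| / 2 - (1 + |T| + B)), sq_abs z]

lemma int (n : ℕ) (t : ℝ) : Integrable fun z => z ^ n * tw h t z := by
  obtain ⟨C, hC⟩ := hG.bound |t| n
  exact ((integrable_exp_neg_mul_sq (by norm_num : (0 : ℝ) < 1 / 4)).const_mul C).mono'
    ((continuous_id.pow n).mul (hG.cont_tw t)).aestronglyMeasurable
    (Eventually.of_forall fun z => (Real.norm_eq_abs _).trans_le (hC t le_rfl z))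

lemma mom_pos (t : ℝ) : 0 < mom h 0 t := by
  have hi := hG.int 0 t
  simp only [pow_zero, one_mul] at hi
  simp only [mom, pow_zero, one_mul]
  exact integral_exp_pos hi

lemma deriv_mom (n : ℕ) (t : ℝ) : HasDerivAt (mom h n) (mom h (n + 1) t) t := by
  obtain ⟨C, hC⟩ := hG.bound (|t| + 1) (n + 1)
  refine (hasDerivAt_integral_of_dominated_loc_of_deriv_le (μ := volume)
    (F := fun s z => z ^ n * tw h s z) (F' := fun s z => z ^ (n + 1) * tw h s z)
    (bound := fun z => C * Real.exp (-(1 / 4) * z ^ 2)) (s := Metric.ball t 1)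
    (Metric.ball_mem_nhds t one_pos) (Eventually.of_forall fun s => (hG.int n s).aestronglyMeasurable)
    (hG.int n t) (hG.int (n + 1) t).aestronglyMeasurable
    (Eventually.of_forall fun z s hs => (Real.norm_eq_abs _).trans_le (hC s ?_ z))
    ((integrable_exp_neg_mul_sq (by norm_num : (0 : ℝ) < 1 / 4)).const_mul C)
    (Eventually.of_forall fun z s _ => ?_)).2
  · rw [Metric.mem_ball, Real.dist_eq] at hs
    linarith [abs_sub_abs_le_abs_sub s t]
  · have := ((((hasDerivAt_id' s).mul_const z).const_add (-(z ^ 2) / 2)).add_const (h z)).exp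
    refine (this.const_mul (z ^ n)).congr_deriv ?_
    simp only [tw, pow_succ]
    ring

lemma deriv_mean (t : ℝ) : HasDerivAt (tmean h) (tvar h t) t := by
  refine ((hG.deriv_mom 1 t).fun_div (hG.deriv_mom 0 t) (hG.mom_pos t).ne').congr_deriv ?_
  simp only [tvar, tmean, zero_add, show (1 + 1 : ℕ) = 2 from rfl]
  field_simp [(hG.mom_pos t).ne']

lemma deriv_var (t : ℝ) : HasDerivAt (tvar h)
    ((mom h 3 t - 3 * tmean h t * mom h 2 t + 3 * tmean h t ^ 2 * mom h 1 t -
      tmean h t ^ 3 * mom h 0 t) / mom h 0 t) t := by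
  refine (((hG.deriv_mom 2 t).fun_div (hG.deriv_mom 0 t) (hG.mom_pos t).ne').fun_sub
    ((hG.deriv_mean t).fun_pow 2)).congr_deriv ?_
  simp only [tvar, tmean, zero_add, Nat.reduceAdd, Nat.add_one_sub_one, pow_one, Nat.cast_ofNat]
  have p := (hG.mom_pos t).ne'
  generalize mom h 0 t = a at p ⊢
  field_simp
  ring

lemma int_sub_pow (n : ℕ) (t c : ℝ) : Integrable fun z => (z - c) ^ n * tw h t z := by
  have e : ∀ z, (z - c) ^ n * tw h t z =
      ∑ i ∈ Finset.range (n + 1), (-c) ^ (n - i) * n.choose i * (z ^ i * tw h t z) := fun z => by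
    rw [sub_eq_add_neg, add_pow, Finset.sum_mul]
    exact Finset.sum_congr rfl fun i _ => by ring
  simp only [e]
  exact integrable_finsetSum _ fun i _ => (hG.int i t).const_mul _

lemma var_nonneg (t : ℝ) : 0 ≤ tvar h t := by
  have h0 : 0 ≤ ∫ z, (z - tmean h t) ^ 2 * tw h t z :=
    integral_nonneg fun z => mul_nonneg (sq_nonneg _) (Real.exp_pos _).le
  set c := tmean h t with hc
  have e : ∀ z, (z - c) ^ 2 * tw h t z =
      z ^ 2 * tw h t z - 2 * c * (z ^ 1 * tw h t z) + c ^ 2 * (z ^ 0 * tw h t z) := fun z => by ring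
  simp only [e] at h0
  rw [integral_add ((hG.int 2 t).sub' ((hG.int 1 t).const_mul _)) ((hG.int 0 t).const_mul _),
    integral_sub (hG.int 2 t) ((hG.int 1 t).const_mul _), integral_const_mul,
    integral_const_mul] at h0
  have p := hG.mom_pos t
  have : tvar h t = (mom h 2 t - 2 * c * mom h 1 t + c ^ 2 * mom h 0 t) / mom h 0 t := by
    rw [tvar, hc, tmean]
    field_simp [p.ne']
    ring
  rw [this]
  exact div_nonneg h0 p.le

lemma mean_zero : tmean h 0 = 0 := by
  have e : mom h 1 0 = -mom h 1 0 := by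
    conv_lhs => rw [mom, ← integral_neg_eq_self]
    rw [mom, ← integral_neg]
    exact integral_congr_ae (Eventually.of_forall fun z => by simp [tw, hG.even])
  rw [tmean, show mom h 1 0 = 0 by linarith, zero_div]

lemma mean_nonneg {t : ℝ} (ht : 0 ≤ t) : 0 ≤ tmean h t :=
  hG.mean_zero ▸ monotone_of_hasDerivAt_nonneg hG.deriv_mean hG.var_nonneg ht

/-- The odd part of the weight around the mean changes sign once. -/
lemma once {t c : ℝ} (hc : 0 ≤ c) {y y' : ℝ} (hy : 0 < y) (hyy : y < y')
    (hn : tw h t (c + y) < tw h t (c - y)) : tw h t (c + y') < tw h t (c - y') := by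
  set W := fun z => -(z ^ 2) / 2 + t * z + h z
  set D := fun y => W (c + y) - W (c - y) with hD
  have dW : ∀ z, HasDerivAt W (-z + t + h1 z) z := fun z =>
    ((((hasDerivAt_pow 2 z).fun_neg.div_const 2).add ((hasDerivAt_id' z).const_mul t)).add
      (hG.d1 z)).congr_deriv (by ring)
  have dD : ∀ y, HasDerivAt D ((-(c + y) + t + h1 (c + y)) + (-(c - y) + t + h1 (c - y))) y := fun y =>
    (((dW (c + y)).comp y ((hasDerivAt_id' y).const_add c)).sub
      ((dW (c - y)).comp y ((hasDerivAt_id' y).const_sub c))).congr_deriv (by ring)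
  have dD2 : ∀ y, HasDerivAt (fun y => (-(c + y) + t + h1 (c + y)) + (-(c - y) + t + h1 (c - y)))
      (h2 (c + y) - h2 (c - y)) y := fun y =>
    (((((hasDerivAt_id' y).const_add c).fun_neg.add_const t).add
      ((hG.d2 (c + y)).comp y ((hasDerivAt_id' y).const_add c))).add
      ((((hasDerivAt_id' y).const_sub c).fun_neg.add_const t).add
      ((hG.d2 (c - y)).comp y ((hasDerivAt_id' y).const_sub c)))).congr_deriv (by ring)
  have hcc : ConcaveOn ℝ (Ici 0) D :=
    concaveOn_of_hasDerivWithinAt2_nonpos (convex_Ici 0)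
      (fun y _ => (dD y).continuousAt.continuousWithinAt) (fun y _ => (dD y).hasDerivWithinAt)
      (fun y _ => (dD2 y).hasDerivWithinAt) fun y hy => by
        rw [interior_Ici] at hy
        have hy0 : (0 : ℝ) < y := hy
        have e : h2 (c - y) = h2 |c - y| := by
          rcases abs_choice (c - y) with h | h <;> rw [h]
          rw [hG.even2]
        rw [sub_nonpos, e]
        exact hG.anti (abs_nonneg (c - y)) (show (0 : ℝ) ≤ c + y by linarith)
          (abs_le.2 ⟨by linarith, by linarith⟩)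
  have hD0 : D 0 = 0 := by simp [hD]
  have hlt : D y < 0 := sub_neg.2 (Real.exp_lt_exp.1 hn)
  refine Real.exp_lt_exp.2 (sub_neg.1 ?_)
  show D y' < 0
  by_contra hge
  have hy' : 0 < y' := hy.trans hyy
  have := hcc.2 (self_mem_Ici : (0 : ℝ) ∈ Ici 0) (show y' ∈ Ici (0 : ℝ) from hy'.le)
    (show 0 ≤ 1 - y / y' by rw [sub_nonneg, div_le_one hy']; exact hyy.le)
    (div_nonneg hy.le hy'.le) (by ring)
  simp only [smul_eq_mul, mul_zero, hD0, zero_add, div_mul_cancel₀ _ hy'.ne'] at this
  nlinarith [mul_nonneg (div_nonneg hy.le hy'.le) (not_lt.1 hge)]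

lemma third_nonpos {t : ℝ} (ht : 0 ≤ t) : mom h 3 t - 3 * tmean h t * mom h 2 t +
    3 * tmean h t ^ 2 * mom h 1 t - tmean h t ^ 3 * mom h 0 t ≤ 0 := by
  set c := tmean h t with hc
  have hc0 : 0 ≤ c := hG.mean_nonneg ht
  -- centred moments as integrals over the half-line of the odd part
  set g := fun y => tw h t (c + y) - tw h t (c - y) with hg
  have ishift : ∀ n : ℕ, Integrable fun y => y ^ n * tw h t (c + y) := fun n => by
    simpa using (hG.int_sub_pow n t c).comp_add_left c
  have split : ∀ n : ℕ, Odd n → IntegrableOn (fun y => y ^ n * g y) (Ioi 0) ∧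
      ∫ z, (z - c) ^ n * tw h t z = ∫ y in Ioi 0, y ^ n * g y := fun n hn => by
    have i1 := ishift n
    have i2 : Integrable fun y => y ^ n * tw h t (c - y) :=
      i1.comp_neg.neg.congr (Eventually.of_forall fun y => by
        simp only [Pi.neg_apply, hn.neg_pow, sub_eq_add_neg, neg_mul, neg_neg])
    refine ⟨(i1.sub i2).integrableOn.congr_fun (fun y _ => by simp [hg, mul_sub]) measurableSet_Ioi,
      ?_⟩
    have e1 : ∫ z, (z - c) ^ n * tw h t z = ∫ y, y ^ n * tw h t (c + y) := by
      rw [← integral_add_left_eq_self _ c]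
      exact integral_congr_ae (Eventually.of_forall fun y => by simp)
    have e2 : ∫ y in Iic 0, y ^ n * tw h t (c + y) = ∫ y in Ioi 0, -(y ^ n * tw h t (c - y)) := by
      have := (integral_comp_neg_Iic (0 : ℝ) fun y => -(y ^ n * tw h t (c - y)))
      rw [neg_zero] at this
      rw [← this]
      exact setIntegral_congr_fun measurableSet_Iic fun y _ => by
        simp [hn.neg_pow]
    rw [e1, ← intervalIntegral.integral_Iic_add_Ioi i1.integrableOn i1.integrableOn, e2,
      ← integral_add i2.fun_neg.integrableOn i1.integrableOn]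
    exact setIntegral_congr_fun measurableSet_Ioi fun y _ => by
      simp only [hg]
      ring
  obtain ⟨j1, s1⟩ := split 1 odd_one
  obtain ⟨j3, s3⟩ := split 3 (by decide)
  -- the first centred moment vanishes
  have z1 : ∫ y in Ioi 0, y ^ 1 * g y = 0 := by
    rw [← s1]
    have e : ∀ z, (z - c) ^ 1 * tw h t z = z ^ 1 * tw h t z - c * (z ^ 0 * tw h t z) := fun z => by ring
    simp only [e]
    rw [integral_sub (hG.int 1 t) ((hG.int 0 t).const_mul _), integral_const_mul]
    change mom h 1 t - c * mom h 0 t = 0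
    rw [hc, tmean, div_mul_cancel₀ _ (hG.mom_pos t).ne', sub_self]
  -- the third one
  have e3 : ∫ y in Ioi 0, y ^ 3 * g y = mom h 3 t - 3 * c * mom h 2 t + 3 * c ^ 2 * mom h 1 t -
      c ^ 3 * mom h 0 t := by
    rw [← s3]
    have e : ∀ z, (z - c) ^ 3 * tw h t z = z ^ 3 * tw h t z - 3 * c * (z ^ 2 * tw h t z) +
        3 * c ^ 2 * (z ^ 1 * tw h t z) - c ^ 3 * (z ^ 0 * tw h t z) := fun z => by ring
    simp only [e]
    have k3 := hG.int 3 t
    have k2 := (hG.int 2 t).const_mul (3 * c)
    have k1 := (hG.int 1 t).const_mul (3 * c ^ 2)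
    have k0 := (hG.int 0 t).const_mul (c ^ 3)
    rw [integral_sub ((k3.sub' k2).fun_add k1) k0, integral_add (k3.sub' k2) k1, integral_sub k3 k2,
      integral_const_mul, integral_const_mul, integral_const_mul]
    rfl
  rw [← e3]
  set S := {y : ℝ | 0 < y ∧ g y < 0} with hS
  by_cases hne : S.Nonempty
  · set y₀ := sInf S
    have hb : BddBelow S := ⟨0, fun y hy => hy.1.le⟩
    have hy₀ : 0 ≤ y₀ := le_csInf hne fun y hy => hy.1.le
    have key : ∀ y ∈ Ioi (0 : ℝ), (y ^ 2 - y₀ ^ 2) * (y * g y) ≤ 0 := fun y hy => by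
      have hy0 : (0 : ℝ) < y := hy
      rcases lt_trichotomy y y₀ with hlt | heq | hgt
      · have : 0 ≤ g y := not_lt.1 fun hneg => absurd (csInf_le hb ⟨hy0, hneg⟩) (not_le.2 hlt)
        exact mul_nonpos_of_nonpos_of_nonneg (by nlinarith) (mul_nonneg hy0.le this)
      · simp [heq]
      · obtain ⟨s, hs, hsy⟩ := exists_lt_of_csInf_lt hne hgt
        have : g y < 0 := sub_neg.2 (hG.once hc0 hs.1 hsy (sub_neg.1 hs.2))
        exact mul_nonpos_of_nonneg_of_nonpos (by nlinarith) (mul_nonpos_of_nonneg_of_nonpos hy0.le this.le)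
    have := setIntegral_nonpos (μ := volume) measurableSet_Ioi key
    have e : ∀ y, (y ^ 2 - y₀ ^ 2) * (y * g y) = y ^ 3 * g y - y₀ ^ 2 * (y ^ 1 * g y) := fun y => by ring
    simp only [e] at this
    rwa [integral_sub j3 (j1.const_mul _), integral_const_mul, z1, mul_zero, sub_zero] at this
  · have hp : 0 ≤ᵐ[volume.restrict (Ioi 0)] fun y => y ^ 1 * g y :=
      (ae_restrict_mem measurableSet_Ioi).mono fun y hy =>
        mul_nonneg (by simpa using le_of_lt (show (0 : ℝ) < y from hy))
          (not_lt.1 fun hneg => hne ⟨y, hy, hneg⟩)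
    have h0 := (integral_eq_zero_iff_of_nonneg_ae hp j1).1 z1
    refine le_of_eq (integral_eq_zero_of_ae (h0.mono fun y hy => ?_))
    simp only [Pi.zero_apply, pow_one] at hy ⊢
    rw [show y ^ 3 * g y = y ^ 2 * (y * g y) by ring, hy, mul_zero]

/-- The variance decreases along the tilt. -/
theorem var_anti : AntitoneOn (tvar h) (Ici 0) :=
  antitoneOn_of_hasDerivWithinAt_nonpos (convex_Ici 0)
    (fun t _ => (hG.deriv_var t).continuousAt.continuousWithinAt)
    (fun t _ => (hG.deriv_var t).hasDerivWithinAt) fun t ht => by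
      rw [interior_Ici] at ht
      exact div_nonpos_of_nonpos_of_nonneg (hG.third_nonpos (le_of_lt ht)) (hG.mom_pos t).le

end GHS

end Vale.Agent.P146.Gap
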