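import Vale.Agent.P146.Gap.Minimiser

/-!
P146: near-optimal order parameters of the formula with almost no gap at zero.
-/

namespace Vale.Agent.P146.Gap

open MeasureTheory Set Filter
open Vale.Agent.P157.Low Vale.Agent.P166F
open scoped Topology

variable {k : ℕ} {β : ℝ} {m e p : Fin (k + 1) → ℝ}

lemma incr_cons (a : Fin (k + 1) → ℝ) :
    incr (Fin.cons 0 a : Fin (k + 2) → ℝ) = Fin.cons 0 (incr a) := by
  funext l
  refine Fin.cases ?_ (fun i => ?_) l
  · simp [incr]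
  · rw [Fin.cons_succ, incr, dif_neg (by simp), incr, Fin.cons_succ]
    congr 1
    split_ifs with h
    · rw [show (⟨(i.succ : ℕ) - 1, by omega⟩ : Fin (k + 2)) = 0 from Fin.ext (by simp [h]),
        Fin.cons_zero]
    · rw [show (⟨(i.succ : ℕ) - 1, by omega⟩ : Fin (k + 2)) =
        (⟨(i : ℕ) - 1, by omega⟩ : Fin (k + 1)).succ from Fin.ext (by simp; omega), Fin.cons_succ]

lemma potUp_cons (m d : Fin (k + 1) → ℝ) : ∀ n, n ≤ k + 1 →
    potUp (Fin.cons 0 m : Fin (k + 2) → ℝ) (Fin.cons 0 d) lcosh n = potUp m d lcosh n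
  | 0, _ => rfl
  | n + 1, hn => by
    have e : (⟨k + 1 - n, by omega⟩ : Fin (k + 2)) = (⟨k - n, by omega⟩ : Fin (k + 1)).succ :=
      Fin.ext (by simp; omega)
    have h1 : n ≤ k + 1 := by omega
    have h2 : n ≤ k := by omega
    simp only [potUp, h1, h2, dite_true, e, Fin.cons_succ, potUp_cons m d n h1]

lemma xbar_cons (m a : Fin (k + 1) → ℝ) :
    xbar (Fin.cons 0 m : Fin (k + 2) → ℝ) (Fin.cons 0 a) = xbar m a := by
  have h := potUp_cons m (incr a) (k + 1) le_rfl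
  simp only [xbar, incr_cons]
  rw [show Fin.last (k + 1) = (Fin.last k).succ from (Fin.succ_last k).symm, Fin.cons_succ]
  congr 1
  show potUp (Fin.cons 0 m : Fin (k + 2) → ℝ) (Fin.cons 0 (incr a)) lcosh (k + 1 + 1) 0 = _
  have e : (⟨k + 1 - (k + 1), by omega⟩ : Fin (k + 2)) = 0 := Fin.ext (by simp)
  conv_lhs => rw [potUp]
  simp only [le_refl, dite_true, e, Fin.cons_zero, if_true, heat_zero]
  rw [h]
  rfl

lemma lmass_cons (m : Fin (k + 1) → ℝ) (l : Fin (k + 1)) :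
    lmass (Fin.cons 0 m : Fin (k + 2) → ℝ) l.succ = lmass m l := by
  simp only [lmass, Fin.cons_succ, Fin.val_succ, Nat.add_lt_add_iff_right]
  split_ifs with h
  · rw [show (⟨(l : ℕ) + 1 + 1, by omega⟩ : Fin (k + 2)) =
      (⟨(l : ℕ) + 1, by omega⟩ : Fin (k + 1)).succ from rfl, Fin.cons_succ]
  · rfl

lemma gVal_cons (p : Fin (k + 1) → ℝ) :
    gVal β (Fin.cons 0 m : Fin (k + 2) → ℝ) (Fin.cons 0 p) = gVal β m p := by
  have e : (fun l => β ^ 2 * (Fin.cons 0 p : Fin (k + 2) → ℝ) l) =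
      Fin.cons 0 fun l => β ^ 2 * p l := funext fun l => by
    refine Fin.cases ?_ (fun i => ?_) l <;> simp
  rw [gVal, gVal, e, xbar_cons, Fin.sum_univ_succ]
  simp [lmass_cons]

lemma weak_cons (hm : Levels m) (hp : Path p) :
    Weak (Fin.cons 0 m : Fin (k + 2) → ℝ) (Fin.cons 0 p) := by
  refine ⟨Fin.cons_zero .., Fin.monotone_iff_le_succ.2 fun i => ?_, fun l => ?_, Fin.cons_zero ..,
    Fin.monotone_iff_le_succ.2 fun i => ?_, fun l => ?_⟩
  · refine Fin.cases ?_ (fun j => ?_) i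
    · simp [hm.zero]
    · simp only [Fin.castSucc_succ, Fin.cons_succ]
      exact hm.strict.monotone (Fin.castSucc_le_succ j)
  · refine Fin.cases ?_ (fun j => ?_) l <;> simp [(hm.ltOne _).le]
  · refine Fin.cases ?_ (fun j => ?_) i
    · simp [hp.nonneg]
    · simp only [Fin.castSucc_succ, Fin.cons_succ]
      exact hp.mono (Fin.castSucc_le_succ j)
  · refine Fin.cases ?_ (fun j => ?_) l <;> simp [(hp.ltOne _).le]

lemma isCompact_weak : IsCompact {x : (Fin (k + 1) → ℝ) × (Fin (k + 1) → ℝ) | Weak x.1 x.2} := by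
  have e : {x : (Fin (k + 1) → ℝ) × (Fin (k + 1) → ℝ) | Weak x.1 x.2} =
      ({m | m 0 = 0} ∩ ({m | Monotone m} ∩ ⋂ l, {m | m l ≤ 1})) ×ˢ
        ({p | p 0 = 0} ∩ ({p | Monotone p} ∩ ⋂ l, {p | p l ≤ 1})) := by
    ext x
    simp only [mem_ofPred_eq, mem_prod, mem_inter_iff, mem_iInter]
    exact ⟨fun h => ⟨⟨h.mzero, h.mmono, h.mle⟩, h.pzero, h.pmono, h.ple⟩,
      fun h => ⟨h.1.1, h.1.2.1, h.1.2.2, h.2.1, h.2.2.1, h.2.2.2⟩⟩
  rw [e]
  have hone : IsCompact ({m : Fin (k + 1) → ℝ | m 0 = 0} ∩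
      ({m | Monotone m} ∩ ⋂ l, {m | m l ≤ 1})) := by
    refine (isCompact_Icc (a := (0 : Fin (k + 1) → ℝ)) (b := 1)).of_isClosed_subset
      ((isClosed_eq (continuous_apply 0) continuous_const).inter (isClosed_monotone.inter
        (isClosed_iInter fun l => isClosed_le (continuous_apply l) continuous_const))) ?_
    rintro x ⟨h0, hm, h1⟩
    exact ⟨fun l => le_of_eq_of_le (Eq.symm h0) (hm (Fin.zero_le l)), fun l => mem_iInter.1 h1 l⟩
  exact hone.prod hone

lemma tendsto_xbar {ι : Type*} {F : Filter ι} {u : ι → Fin (k + 1) → ℝ} {a : Fin (k + 1) → ℝ}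
    (he : ∀ l, 0 ≤ e l) (hu : ∀ᶠ i in F, ∀ l, 0 ≤ u i l) (ht : Tendsto u F (𝓝 e))
    (ha : Monotone a ∧ ∀ l, 0 ≤ a l) :
    Tendsto (fun i => xbar (u i) a) F (𝓝 (xbar e a)) := by
  rw [tendsto_iff_norm_sub_tendsto_zero]
  refine squeeze_zero' (Eventually.of_forall fun i => norm_nonneg _)
    (g := fun i => (k + 1 : ℝ) * (a (Fin.last k) / 2) * ∑ l, |u i l - e l|) ?_ ?_
  · filter_upwards [hu] with i hi
    rw [Real.norm_eq_abs]
    exact abs_xbar_exps hi he ha fun l => ha.1 (Fin.le_last l)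
  · exact ((Continuous.tendsto' (by fun_prop : Continuous fun x : Fin (k + 1) → ℝ =>
      (k + 1 : ℝ) * (a (Fin.last k) / 2) * ∑ l, |x l - e l|) e 0 (by simp))).comp ht

/-- Slightly strict exponents can only raise the curvature at the root, up to `δ`. -/
lemma dRoot_usc {ι : Type*} {F : Filter ι} {u : ι → Fin (k + 1) → ℝ} (h : Weak m p)
    (hu : ∀ᶠ i in F, Levels (u i)) (ht : Tendsto u F (𝓝 m)) {δ : ℝ} (hδ : 0 < δ) :
    ∀ᶠ i in F, ∑ l, lmass (u i) l * slopeSq (u i) (fun j => β ^ 2 * p j) l <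
      ∑ l, lmass m l * slopeSq m (fun j => β ^ 2 * p j) l + δ := by
  set a := fun j => β ^ 2 * p j
  set b := fun j => a j + 1
  have ha := h.field β
  have hadd : ∀ c : ℝ, 0 ≤ c → (Monotone fun j => a j + c) ∧ ∀ l, 0 ≤ a l + c := fun c hc =>
    ⟨fun i j hij => by simpa using ha.1 hij, fun l => add_nonneg (ha.2 l) hc⟩
  have hb : Monotone b ∧ ∀ l, 0 ≤ b l := hadd 1 zero_le_one
  obtain ⟨hf, hg, hd⟩ := xbar_line h.mnonneg ha hb
  set g := fun t : ℝ => dirDeriv m (fun i => a i + t * (b i - a i)) fun i => b i - a i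
  obtain ⟨ρ, hρ, hball⟩ := Metric.continuousWithinAt_iff.1 (hg 0 ⟨le_rfl, zero_le_one⟩) (δ / 4)
    (by linarith)
  set c := min (ρ / 2) 1
  have hc : 0 < c := lt_min (half_pos hρ) one_pos
  have hc1 : c ≤ 1 := min_le_right _ _
  obtain ⟨t, htc, hte⟩ := exists_hasDerivAt_eq_slope _ g hc (hf.mono (Icc_subset_Icc le_rfl hc1))
    fun s hs => hd s ⟨hs.1, hs.2.trans_le hc1⟩
  have hgt : |g t - g 0| < δ / 4 := by
    rw [← Real.dist_eq]
    refine hball ⟨htc.1.le, htc.2.le.trans hc1⟩ ?_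
    rw [Real.dist_eq, sub_zero, abs_of_pos htc.1]
    linarith [htc.2, min_le_left (ρ / 2) 1]
  have hb1 : ∀ i, b i - a i = 1 := fun i => by simp [b]
  have ec : (fun i => a i + c * (b i - a i)) = fun j => a j + c := funext fun i => by
    rw [hb1, mul_one]
  have hte' : g t = ((xbar m fun j => a j + c) - xbar m a) / c := by
    rw [hte, ← ec]; simp [a]
  have hg0 : g 0 = -(∑ l, lmass m l * slopeSq m a l) / 2 := by simp [g, hb1, dirDeriv]
  have hlim : Tendsto (fun i => 2 / c * (xbar (u i) a - xbar (u i) fun j => a j + c)) F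
      (𝓝 (2 / c * (xbar m a - xbar m fun j => a j + c))) := by
    have hu' : ∀ᶠ i in F, ∀ l, 0 ≤ u i l := hu.mono fun i hi l => (hi.unit l).1
    exact ((tendsto_xbar h.mnonneg hu' ht ha).sub
      (tendsto_xbar h.mnonneg hu' ht (hadd c hc.le))).const_mul _
  have hlt : 2 / c * (xbar m a - xbar m fun j => a j + c) <
      ∑ l, lmass m l * slopeSq m a l + δ := by
    have e : 2 / c * (xbar m a - xbar m fun j => a j + c) = -2 * g t := by
      rw [hte']; field_simp; ring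
    rw [e]
    linarith [(abs_lt.1 hgt).1]
  filter_upwards [hu, hlim.eventually (Iio_mem_nhds hlt)] with i hi hlt'
  refine lt_of_le_of_lt ?_ hlt'
  have := xbar_le_tangent hi ha (hadd c hc.le)
  have e : ∀ x, a x + c - a x = c := fun x => add_sub_cancel_left _ _
  change _ ≤ dirDeriv (u i) a (fun x => a x + c - a x) at this
  simp only [dirDeriv, e, ← Finset.sum_mul] at this
  change (xbar (u i) fun j => a j + c) - xbar (u i) a ≤ _ at this
  rw [div_mul_eq_mul_div, le_div_iff₀ hc]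
  linarith

variable {μ : Measure ℝ} (hle : ∀ w, 0 < w → rtr μ w ≤ w)
  (heq : ∀ w, 0 < w → w ≤ 1 → rtr μ w = w) (h0 : rtr μ 0 = 0)

lemma tail_zero (hm : Levels m) (hp : Path p) :
    tail (stepLaw m p) 0 = 1 - ∑ l, lmass m l * p l := by
  rw [Low.tail_stepLaw hm, Low.tsum']
  simp only [max_eq_right (hp.nonneg _), mul_sub, mul_one, Finset.sum_sub_distrib,
    Low.sum_lmass_one hm.zero]

include hle h0 in
/-- A curvature at the root survives strict exponents. -/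
lemma exists_strict {β : ℝ} (hβ : 1 ≤ β) {ε : ℝ} (hε : 0 < ε) {M P : Fin (k + 1) → ℝ} {v : ℝ}
    (hQ : Weak M P) (hgap : 1 ≤ β * dRoot β M P) (hGQ : gVal β M P < v) :
    ∃ m f : Fin (k + 1) → ℝ, Levels m ∧ Path f ∧ energy μ β (stepLaw m f) + entS m f < v ∧
      1 - ε ≤ β * tail (stepLaw m f) 0 := by
  have hβ0 : 0 ≤ β := zero_le_one.trans hβ
  set u := fun (η : ℝ) (l : Fin (k + 1)) => (1 - η) * M l + η * ((l : ℕ) / (k + 1 : ℝ))
  have hu : ∀ᶠ η in 𝓝[>] (0 : ℝ), Levels (u η) := by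
    filter_upwards [Ioo_mem_nhdsGT one_pos] with η hη
    refine ⟨by simp [u, hQ.mzero], fun i j hij => ?_, fun l => ?_⟩
    · have h1 : ((i : ℕ) : ℝ) < (j : ℕ) := Nat.cast_lt.2 hij
      exact add_lt_add_of_le_of_lt
        (mul_le_mul_of_nonneg_left (hQ.mmono hij.le) (sub_nonneg.2 hη.2.le))
        (mul_lt_mul_of_pos_left (div_lt_div_of_pos_right h1 (by positivity)) hη.1)
    · have h1 : ((l : ℕ) : ℝ) / (k + 1) < 1 := by
        rw [div_lt_one (by positivity)]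
        exact_mod_cast l.2
      have := mul_lt_mul_of_pos_left h1 hη.1
      have := mul_le_mul_of_nonneg_left (hQ.mle l) (sub_nonneg.2 hη.2.le)
      simp only [u]
      linarith
  have ht : Tendsto u (𝓝[>] (0 : ℝ)) (𝓝 M) :=
    (Continuous.tendsto' (by fun_prop) 0 M (by simp [u])).mono_left nhdsWithin_le_nhds
  have hwu : ∀ᶠ η in 𝓝[>] (0 : ℝ), Weak (u η) P :=
    hu.mono fun η h => ⟨h.zero, h.strict.monotone, fun l => (h.ltOne l).le, hQ.pzero, hQ.pmono,
      hQ.ple⟩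
  have hgv : Tendsto (fun η => gVal β (u η) P) (𝓝[>] (0 : ℝ)) (𝓝 (gVal β M P)) :=
    (continuousOn_gVal β (M, P) hQ).tendsto.comp
      (tendsto_nhdsWithin_iff.2 ⟨ht.prodMk_nhds tendsto_const_nhds, hwu⟩)
  have hs := dRoot_usc (β := β) hQ hu ht (div_pos hε (zero_lt_one.trans_le hβ))
  obtain ⟨η, hηL, hηG, hηS⟩ :=
    (hu.and ((hgv.eventually (Iio_mem_nhds hGQ)).and hs)).exists
  have hf : Path (slopeSq (u η) fun j => β ^ 2 * P j) :=
    chainSlope_eq (u η) (fun j => β ^ 2 * P j) ▸ chainSlope_path hηL (hQ.field β)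
  set f := slopeSq (u η) fun j => β ^ 2 * P j
  refine ⟨u η, f, hηL, hf, (value_slope_le hle h0 hβ0 hηL (hQ.field β)).trans_lt hηG, ?_⟩
  rw [tail_zero hηL hf]
  have h3 := mul_lt_mul_of_pos_left hηS (zero_lt_one.trans_le hβ)
  rw [mul_add, mul_div_cancel₀ _ (zero_lt_one.trans_le hβ).ne'] at h3
  rw [dRoot] at hgap
  linarith

/-- There are nearly optimal order parameters with almost no gap at zero. -/
theorem exists_near (μ : Measure ℝ) (hle : ∀ w, 0 < w → rtr μ w ≤ w)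
    (heq : ∀ w, 0 < w → w ≤ 1 → rtr μ w = w) (h0 : rtr μ 0 = 0) {β : ℝ} (hβ : 1 ≤ β) {ε : ℝ}
    (hε : 0 < ε) :
    ∃ (k : ℕ) (m p : Fin (k + 1) → ℝ), Levels m ∧ Path p ∧
      energy μ β (stepLaw m p) + entS m p < sInf (formulaValues μ β) + ε ∧
      1 - ε ≤ β * tail (stepLaw m p) 0 := by
  have hβ0 : 0 ≤ β := zero_le_one.trans hβ
  by_contra hno
  have H : ∀ (k : ℕ) (m p : Fin (k + 1) → ℝ), Levels m → Path p →
      energy μ β (stepLaw m p) + entS m p < sInf (formulaValues μ β) + ε →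
      β * tail (stepLaw m p) 0 < 1 - ε := fun k m p hm hp hv =>
    not_le.1 fun hT => hno ⟨k, m, p, hm, hp, hv, hT⟩
  set v := sInf (formulaValues μ β)
  have hne : (formulaValues μ β).Nonempty :=
    ⟨_, 0, fun _ => 0, fun _ => 0, ⟨rfl, fun i j h => absurd h (by omega), fun _ => one_pos⟩,
      ⟨monotone_const, fun _ => le_rfl, fun _ => one_pos⟩, rfl⟩
  obtain ⟨_, ⟨k, m, p, hm, hp, rfl⟩, hlt⟩ := exists_lt_of_csInf_lt hne
    (lt_add_of_pos_right v (half_pos hε))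
  have hT := H k m p hm hp (by linarith)
  have hG : gVal β m p < v + ε / 2 :=
    (gVal_le_value heq h0 hβ0 hm hp (by linarith)).trans_lt hlt
  rw [← gVal_cons p] at hG
  obtain ⟨⟨M, P⟩, hw, hmin⟩ := (isCompact_weak (k := k + 1)).exists_isMinOn
    ⟨(Fin.cons 0 m, Fin.cons 0 p), weak_cons hm hp⟩ (continuousOn_gVal β)
  replace hw : Weak M P := hw
  obtain ⟨Q, hQ, hQe, hgap⟩ := minimiser_gap hβ hw fun e q heq' => hmin (show (e, q) ∈ _ from heq')
  have hGQ : gVal β M Q < v + ε / 2 :=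
    hQe.le.trans_lt ((hmin (show ((Fin.cons 0 m : Fin (k + 2) → ℝ), Fin.cons 0 p) ∈ _ from
      weak_cons hm hp)).trans_lt hG)
  obtain ⟨m', f, hm', hf, hv', hT'⟩ :=
    exists_strict hle h0 hβ hε hQ hgap hGQ
  linarith [H _ m' f hm' hf (by linarith)]

end Vale.Agent.P146.Gap
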