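import Vale.Agent.P166F.Ent

/-!
P146: one tilted level as a function of its exponent.
-/

namespace Vale.Agent.P146.Gap

open MeasureTheory ProbabilityTheory Set Filter
open Vale.Agent.P157.Low Vale.Agent.P166F
open scoped Topology

/-- A slice of a family, constant in time. -/
noncomputable def slice (F : Fam) : Fam where
  U _ := F.U 0
  U1 _ := F.U1 0
  U2 _ := F.U2 0
  Ut _ _ := 0
  cont := F.cont.comp (continuous_const.prodMk continuous_snd)
  cont1 := F.cont1.comp (continuous_const.prodMk continuous_snd)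
  cont2 := F.cont2.comp (continuous_const.prodMk continuous_snd)
  contt := continuous_const
  d1 _ := F.d1 0
  d2 _ := F.d2 0
  dt _ _ _ := hasDerivAt_const _ _
  even _ := F.even 0
  one _ := F.one 0
  nn _ := F.nn 0
  bdd := by
    obtain ⟨B, hB⟩ := F.bdd
    exact ⟨B, fun t x => ⟨(hB 0 x).1, by simpa using (abs_nonneg _).trans (hB 0 x).2⟩⟩

lemma potStep_zero_var (m : ℝ) (U : ℝ → ℝ) : potStep m 0 U = U := by
  funext y
  by_cases hm : m = 0
  · simp [potStep, hm, heat_zero]
  · simp only [potStep, if_neg hm, heat_zero, Real.log_exp]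
    field_simp

lemma insStep_zero_var (m : ℝ) (U θ : ℝ → ℝ) : insStep m 0 U θ = θ := by
  funext y
  simp only [insStep, heat_zero]
  exact mul_div_cancel_left₀ _ (Real.exp_pos _).ne'

variable {U θ θ' : ℝ → ℝ}

lemma insStep_lin (hU : P166F.Pot U) {m : ℝ} (hm : 0 ≤ m) {B B' : ℝ} (hθ : Continuous θ)
    (hB : ∀ x, |θ x| ≤ B) (hθ' : Continuous θ') (hB' : ∀ x, |θ' x| ≤ B') (a b d y : ℝ) :
    insStep m d U (fun x => a * θ x + b * θ' x) y =
      a * insStep m d U θ y + b * insStep m d U θ' y := by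
  simp only [insStep, heat, mul_add, mul_left_comm _ a, mul_left_comm _ b]
  rw [integral_add ((hU.int_wgt hm hθ hB y _).const_mul a) ((hU.int_wgt hm hθ' hB' y _).const_mul b),
    integral_const_mul, integral_const_mul, add_div, mul_div_assoc, mul_div_assoc]

/-- Averages of squared slopes, the inner level having exponent `e`. -/
noncomputable def sqMid (F : Fam) (m e A t y : ℝ) : ℝ :=
  insStep m (A * t) (potStep e (A * (1 - t)) (F.U 0))
    (fun x => insStep e (A * (1 - t)) (F.U 0) (F.U1 0) x ^ 2) y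

lemma hpos_lin {A : ℝ} (hA : 0 ≤ A) :
    (A = 0 ∨ ∀ s ∈ Ioo (0 : ℝ) 1, 0 < A * s) ∧ (-A = 0 ∨ ∀ s ∈ Ioo (0 : ℝ) 1, 0 < A * (1 - s)) := by
  rcases hA.eq_or_lt with h | h
  · exact ⟨.inl h.symm, .inl (by simp [← h])⟩
  · exact ⟨.inr fun s hs => mul_pos h hs.1, .inr fun s hs => mul_pos h (sub_pos.2 hs.2)⟩

/-- The inner family. -/
noncomputable def innerFam (F : Fam) {e A : ℝ} (he : 0 ≤ e) (hA : 0 ≤ A) : Fam :=
  (slice F).step he (d := fun t => A * (1 - t)) (δ := -A) (by fun_prop)
    (fun s _ => by simpa using ((hasDerivAt_id s).const_sub 1).const_mul A) (hpos_lin hA).2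

/-- Both levels, the total variance fixed. -/
noncomputable def bothFam (F : Fam) {m e A : ℝ} (hm : 0 ≤ m) (he : 0 ≤ e) (hA : 0 ≤ A) : Fam :=
  (innerFam F he hA).step hm (d := fun t => A * t) (δ := A) (by fun_prop)
    (fun s _ => by simpa using (hasDerivAt_id s).const_mul A) (hpos_lin hA).1

variable (F : Fam) {m e A : ℝ} (hm : 0 ≤ m) (he : 0 ≤ e) (hA : 0 ≤ A)

include hm he hA in
lemma sqMid_mem (t y : ℝ) : 0 ≤ sqMid F m e A t y ∧ sqMid F m e A t y ≤ 1 := by
  have hp := (innerFam F he hA).pot t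
  have hc : Continuous fun x => (innerFam F he hA).U1 t x ^ 2 :=
    ((innerFam F he hA).cont1.comp (by fun_prop : Continuous fun x : ℝ => (t, x))).pow 2
  have h1 : ∀ x, |(innerFam F he hA).U1 t x ^ 2| ≤ 1 := fun x => by
    rw [abs_of_nonneg (sq_nonneg _)]; exact (innerFam F he hA).sq_le_one t x
  refine ⟨?_, (abs_le.1 (abs_insStep_le hp hm hc h1 _ y)).2⟩
  have := insStep_le hp hm (θ := fun _ => (0 : ℝ)) continuous_const (fun _ => le_rfl) hc h1
    (fun x => sq_nonneg _) (A * t) y
  rwa [insStep_const hp hm] at this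

include hm he hA in
/-- The change of a level in its exponent is an average of squared slopes. -/
theorem potStep_sub (y : ℝ) :
    potStep m A (F.U 0) y - potStep e A (F.U 0) y =
      A / 2 * (m - e) * ∫ t in (0 : ℝ)..1, sqMid F m e A t y := by
  set G := innerFam F he hA
  set H := bothFam F hm he hA
  obtain ⟨B, hB⟩ := G.bdd
  have hUt : ∀ t, H.Ut t y = A / 2 * (m - e) * sqMid F m e A t y := by
    intro t
    have hθ : ∀ x, G.Ut t x = (-A / 2) * G.th2 m t x + (A / 2 * (m - e)) * G.U1 t x ^ 2 := fun x => by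
      show insStep e (A * (1 - t)) (F.U 0) (fun _ => (0 : ℝ)) x +
          -A / 2 * insStep e (A * (1 - t)) (F.U 0) ((slice F).th2 e t) x = _
      rw [insStep_const (F.pot 0) he]
      simp only [Fam.th2, G, innerFam, Fam.step, slice]
      ring
    have hc : Continuous fun x : ℝ => (t, x) := by fun_prop
    show insStep m (A * t) (G.U t) (G.Ut t) y + A / 2 * insStep m (A * t) (G.U t) (G.th2 m t) y = _
    rw [show G.Ut t = fun x => (-A / 2) * G.th2 m t x + (A / 2 * (m - e)) * G.U1 t x ^ 2 from funext hθ,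
      insStep_lin (θ := G.th2 m t) (θ' := fun x => G.U1 t x ^ 2) (G.pot t) hm
        ((G.cont_th2 m).comp hc) (G.bdd_th2 hm (fun t x => (hB t x).1) t)
        ((G.cont1.comp hc).pow 2) (B' := 1) (fun x => by
          rw [abs_of_nonneg (sq_nonneg _)]; exact G.sq_le_one t x)]
    show _ = A / 2 * (m - e) * insStep m (A * t) (G.U t) (fun x => G.U1 t x ^ 2) y
    ring
  have h := intervalIntegral.integral_eq_sub_of_hasDerivAt_of_le zero_le_one
    (f := fun t => H.U t y) (f' := fun t => H.Ut t y)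
    (H.cont.comp (by fun_prop : Continuous fun t : ℝ => (t, y))).continuousOn
    (fun t ht => H.dt t ht y)
    ((H.contt.comp (by fun_prop : Continuous fun t : ℝ => (t, y))).intervalIntegrable _ _)
  simp only [hUt, intervalIntegral.integral_const_mul] at h
  rw [h]
  show _ = potStep m (A * 1) (potStep e (A * (1 - 1)) (F.U 0)) y -
    potStep m (A * 0) (potStep e (A * (1 - 0)) (F.U 0)) y
  simp [potStep_zero_var]

include hm he hA in
lemma abs_potStep_sub_le (y : ℝ) :
    |potStep m A (F.U 0) y - potStep e A (F.U 0) y| ≤ A / 2 * |m - e| := by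
  rw [potStep_sub F hm he hA y, abs_mul, abs_mul, abs_of_nonneg (by positivity : 0 ≤ A / 2)]
  refine mul_le_of_le_one_right (by positivity) ?_
  have := intervalIntegral.norm_integral_le_of_norm_le_const (a := (0 : ℝ)) (b := 1) (C := 1)
    (f := fun t => sqMid F m e A t y) fun t _ => by
      rw [Real.norm_eq_abs, abs_of_nonneg (sqMid_mem F hm he hA t y).1]
      exact (sqMid_mem F hm he hA t y).2
  simpa using this

/-- A level of exponent `max τ m`, jointly in `τ` and the field. -/
lemma gb_exponent (F : Fam) (hm : 0 ≤ m) {θ : ℝ → ℝ} (hθ : Continuous θ) (hθ1 : ∀ x, |θ x| ≤ 1) :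
    GB fun τ x => Real.exp (max τ m * F.U 0 x) * θ x := by
  refine ⟨((((continuous_fst.max continuous_const).mul (F.cont.comp
    (continuous_const.prodMk continuous_snd))).rexp).mul (hθ.comp continuous_snd)), fun τ₀ => ?_⟩
  obtain ⟨M, hM0, hM⟩ := F.growth 0
  set b := |τ₀| + 1 + m
  refine ⟨Real.exp (b * M), b, by positivity, fun τ hτ x => ?_⟩
  rw [abs_mul, Real.abs_exp, ← Real.exp_add]
  refine (mul_le_of_le_one_right (Real.exp_pos _).le (hθ1 x)).trans (Real.exp_le_exp.2 ?_)
  rw [← mul_add]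
  have h0 : 0 ≤ max τ m := hm.trans (le_max_right _ _)
  have hb : max τ m ≤ b := by
    have := (abs_le.1 hτ).2
    exact max_le (by linarith [le_abs_self τ₀]) (by linarith [abs_nonneg τ₀])
  calc max τ m * F.U 0 x ≤ max τ m * (M + |x|) :=
        mul_le_mul_of_nonneg_left ((le_abs_self _).trans (hM 0 (by simp) x)) h0
    _ ≤ b * (M + |x|) := mul_le_mul_of_nonneg_right hb (by positivity)

/-- The averaged squared slope is continuous in the inner exponent. -/
theorem continuous_sqMid (F : Fam) (hm : 0 ≤ m) (_hA : 0 ≤ A) (t : ℝ) :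
    Continuous fun τ => sqMid F m (max τ m) A t 0 := by
  have he : ∀ τ, 0 ≤ max τ m := fun τ => hm.trans (le_max_right _ _)
  set d := A * (1 - t)
  set u : ℝ → ℝ → ℝ := fun τ x => insStep (max τ m) d (F.U 0) (F.U1 0) x
  have h1 : Continuous (F.U1 0) := F.cont1.comp (by fun_prop : Continuous fun x : ℝ => ((0 : ℝ), x))
  have hZ : Continuous fun p : ℝ × ℝ =>
      heat (fun x => Real.exp (max p.1 m * F.U 0 x)) d p.2 := by
    simpa using (gb_exponent F hm (θ := fun _ => (1 : ℝ)) continuous_const (fun _ => by simp)).cont_heat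
      (d := fun _ => d) continuous_const
  have hu : Continuous fun p : ℝ × ℝ => u p.1 p.2 :=
    ((gb_exponent F hm h1 (F.one 0)).cont_heat (d := fun _ => d) continuous_const).div hZ
      fun p => ((F.pot 0).pos (he _) _ _).ne'
  have hu1 : ∀ τ x, |u τ x| ≤ 1 := fun τ x => abs_insStep_le (F.pot 0) (he τ) h1 (F.one 0) d x
  have hu2 : ∀ τ x, |u τ x ^ 2| ≤ 1 := fun τ x => by
    rw [abs_pow]; exact pow_le_one₀ (abs_nonneg _) (hu1 τ x)
  rcases hm.eq_or_lt with h0 | hm'
  · have : (fun τ => sqMid F m (max τ m) A t 0) = fun τ => heat (fun x => u τ x ^ 2) (A * t) 0 := by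
      funext τ
      simp only [sqMid]
      rw [show ∀ U θ, insStep m (A * t) U θ = heat θ (A * t) from fun U θ => by
        rw [← h0, insStep_zero]]
    rw [this]
    exact (((GB.mk (g := fun τ x => u τ x ^ 2) (hu.pow 2)
      fun _ => ⟨1, 0, le_rfl, fun τ _ x => by simpa using hu2 τ x⟩).cont_heat
      (d := fun _ => A * t) continuous_const).comp (continuous_id.prodMk continuous_const))
  · have he' : ∀ τ, max τ m ≠ 0 := fun τ => (hm'.trans_le (le_max_right _ _)).ne'
    set V : ℝ → ℝ → ℝ := fun τ x => potStep (max τ m) d (F.U 0) x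
    have hV : Continuous fun p : ℝ × ℝ => V p.1 p.2 := by
      simp only [V, potStep, he', if_false]
      exact (hZ.log fun p => ((F.pot 0).pos (he _) _ _).ne').div (by fun_prop) fun p => he' _
    have hlip : ∀ τ x, |V τ x| ≤ |V τ 0| + |x| := fun τ x => by
      have := ((slice F).step (he τ) (d := fun _ => d) (δ := 0) continuous_const
        (fun s _ => hasDerivAt_const s d) (.inl rfl)).lip 0 0 x
      rw [sub_zero] at this
      change |V τ x - V τ 0| ≤ |x| at this
      linarith [abs_sub_abs_le_abs_sub (V τ x) (V τ 0)]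
    have hg : ∀ {θ : ℝ → ℝ → ℝ}, Continuous (fun p : ℝ × ℝ => θ p.1 p.2) →
        (∀ τ x, |θ τ x| ≤ 1) → GB fun τ x => Real.exp (m * V τ x) * θ τ x := by
      intro θ hθ hθ1
      refine ⟨((hV.const_mul m).rexp).mul hθ, fun τ₀ => ?_⟩
      obtain ⟨M, hM⟩ := (isCompact_Icc (a := τ₀ - 1) (b := τ₀ + 1)).exists_bound_of_continuousOn
        (hV.comp (by fun_prop : Continuous fun s : ℝ => (s, (0 : ℝ)))).continuousOn
      refine ⟨Real.exp (m * M), m, hm, fun τ hτ x => ?_⟩
      rw [abs_mul, Real.abs_exp, ← Real.exp_add, ← mul_add]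
      refine (mul_le_of_le_one_right (Real.exp_pos _).le (hθ1 τ x)).trans
        (Real.exp_le_exp.2 (mul_le_mul_of_nonneg_left ?_ hm))
      have hτ' := hM τ ⟨by linarith [(abs_le.1 hτ).1], by linarith [(abs_le.1 hτ).2]⟩
      simp only [Function.comp_apply, Real.norm_eq_abs] at hτ'
      linarith [le_abs_self (V τ x), hlip τ x]
    have hp : ∀ τ, P166F.Pot (V τ) := fun τ =>
      ⟨hV.comp (by fun_prop : Continuous fun x : ℝ => (τ, x)), |V τ 0|, hlip τ⟩
    have hden : Continuous fun p : ℝ × ℝ => heat (fun x => Real.exp (m * V p.1 x)) (A * t) p.2 := by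
      simpa using (hg (θ := fun _ _ => (1 : ℝ)) continuous_const (fun _ _ => by simp)).cont_heat
        (d := fun _ => A * t) continuous_const
    exact (((hg (θ := fun τ x => u τ x ^ 2) (hu.pow 2) hu2).cont_heat (d := fun _ => A * t)
      continuous_const).div hden fun p => ((hp _).pos hm _ _).ne').comp
        (continuous_id.prodMk continuous_const)

lemma continuous_sqMid_time (F : Fam) {e : ℝ} (hm : 0 ≤ m) (he : 0 ≤ e) (hA : 0 ≤ A) :
    Continuous fun t => sqMid F m e A t 0 := by
  set G := innerFam F he hA with hG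
  have h := G.cont_insStep (m := m) hm (d := fun t => A * t) (by fun_prop)
    (θ := fun t x => G.U1 t x ^ 2) (G.cont1.pow 2) (B := 1) fun t x => by
      rw [abs_of_nonneg (sq_nonneg _)]; exact G.sq_le_one t x
  have hU : ∀ t, G.U t = potStep e (A * (1 - t)) (F.U 0) := fun t => rfl
  have hU1 : ∀ t x, G.U1 t x = insStep e (A * (1 - t)) (F.U 0) (F.U1 0) x := fun t x => rfl
  have h' := h.comp (by fun_prop : Continuous fun t : ℝ => (t, (0 : ℝ)))
  simp only [Function.comp_def, hU, hU1] at h'
  exact h'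

/-- Raising the exponent slightly costs less than any number above the average squared slope. -/
theorem exists_gain (F : Fam) (hm : 0 ≤ m) (hA : 0 < A) {c η : ℝ} (hη : 0 < η)
    (hc : ∫ t in (0 : ℝ)..1, sqMid F m m A t 0 < c) :
    ∃ δ, 0 < δ ∧ δ ≤ η ∧
      potStep (m + δ) A (F.U 0) 0 - potStep m A (F.U 0) 0 < δ * (A / 2) * c := by
  have hlim : Tendsto (fun τ => ∫ t in (0 : ℝ)..1, sqMid F m (max τ m) A t 0) (𝓝 m)
      (𝓝 (∫ t in (0 : ℝ)..1, sqMid F m m A t 0)) := by
    refine intervalIntegral.tendsto_integral_filter_of_dominated_convergence (fun _ => (1 : ℝ))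
      (Eventually.of_forall fun τ => ?_) (Eventually.of_forall fun τ => ae_of_all _ fun t _ => ?_)
      (by simp) (ae_of_all _ fun t _ => ?_)
    · have he : 0 ≤ max τ m := hm.trans (le_max_right _ _)
      obtain h := (innerFam F he hA.le).cont_insStep (m := m) hm (d := fun t => A * t) (by fun_prop)
        (θ := fun t x => (innerFam F he hA.le).U1 t x ^ 2) ((innerFam F he hA.le).cont1.pow 2)
        (B := 1) fun t x => by
          rw [abs_of_nonneg (sq_nonneg _)]; exact (innerFam F he hA.le).sq_le_one t x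
      exact (h.comp (by fun_prop : Continuous fun t : ℝ => (t, (0 : ℝ)))).aestronglyMeasurable
    · have := sqMid_mem F hm (hm.trans (le_max_right τ m)) hA.le t 0
      rw [Real.norm_eq_abs, abs_of_nonneg this.1]; exact this.2
    · simpa using (continuous_sqMid F hm hA.le t).tendsto m
  obtain ⟨ρ, hρ, hball⟩ := Metric.eventually_nhds_iff.1 (hlim.eventually (Iio_mem_nhds hc))
  refine ⟨min η (ρ / 2), lt_min hη (half_pos hρ), min_le_left _ _, ?_⟩
  set δ := min η (ρ / 2)
  have hδ : 0 < δ := lt_min hη (half_pos hρ)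
  have h := @hball (m + δ) (by
    rw [Real.dist_eq, add_sub_cancel_left, abs_of_pos hδ]
    linarith [min_le_right η (ρ / 2)])
  rw [max_eq_left (by linarith)] at h
  have hs := potStep_sub F hm (show 0 ≤ m + δ by linarith) hA.le 0
  nlinarith [mul_lt_mul_of_pos_left h (mul_pos hδ (half_pos hA))]

end Vale.Agent.P146.Gap
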