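import Mathlib

/-!
P146: integrals against `exp (-x²/2 + φ)` on the half-line, for functions of exponential growth.
-/

namespace Vale.Agent.P146.Gap

open MeasureTheory Set Filter
open scoped Topology

/-- A continuous function of at most exponential growth. -/
structure EG (f : ℝ → ℝ) : Prop where
  cont : Continuous f
  bound : ∃ C B : ℝ, 0 ≤ B ∧ ∀ x, 0 ≤ x → |f x| ≤ C * Real.exp (B * x)

namespace EG

variable {f g : ℝ → ℝ}

lemma const (c : ℝ) : EG fun _ => c := ⟨continuous_const, |c|, 0, le_rfl, fun x _ => by simp⟩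

lemma id : EG fun x => x :=
  ⟨continuous_id', 1, 1, zero_le_one, fun x hx => by
    rw [abs_of_nonneg hx, one_mul, one_mul]; linarith [Real.add_one_le_exp x]⟩

lemma mul (hf : EG f) (hg : EG g) : EG fun x => f x * g x := by
  obtain ⟨C, B, hB, h⟩ := hf.bound
  obtain ⟨D, A, hA, k⟩ := hg.bound
  refine ⟨hf.cont.mul hg.cont, C * D, B + A, by linarith, fun x hx => ?_⟩
  rw [abs_mul]
  refine (mul_le_mul (h x hx) (k x hx) (abs_nonneg _) ((abs_nonneg _).trans (h x hx))).trans_eq ?_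
  rw [add_mul, Real.exp_add]; ring

lemma add (hf : EG f) (hg : EG g) : EG fun x => f x + g x := by
  obtain ⟨C, B, hB, h⟩ := hf.bound
  obtain ⟨D, A, hA, k⟩ := hg.bound
  have hC : 0 ≤ C := by
    have := (abs_nonneg _).trans (h 0 le_rfl); simpa using this
  have hD : 0 ≤ D := by
    have := (abs_nonneg _).trans (k 0 le_rfl); simpa using this
  refine ⟨hf.cont.add hg.cont, C + D, B + A, by linarith, fun x hx => ?_⟩
  refine (abs_add_le _ _).trans ((add_le_add (h x hx) (k x hx)).trans ?_)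
  rw [add_mul C D]
  exact add_le_add (mul_le_mul_of_nonneg_left (Real.exp_le_exp.2 (by nlinarith)) hC)
    (mul_le_mul_of_nonneg_left (Real.exp_le_exp.2 (by nlinarith)) hD)

lemma smul (c : ℝ) (hf : EG f) : EG fun x => c * f x := (EG.const c).mul hf

lemma sub (hf : EG f) (hg : EG g) : EG fun x => f x - g x :=
  ⟨hf.cont.sub hg.cont, by
    simpa [sub_eq_add_neg] using (hf.add (EG.smul (-1) hg)).bound⟩

lemma pow (hf : EG f) : ∀ n : ℕ, EG fun x => f x ^ n
  | 0 => by simpa using EG.const 1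
  | n + 1 => by simpa [pow_succ] using (pow hf n).mul hf

lemma of_bdd {B : ℝ} (hc : Continuous f) (h : ∀ x, 0 ≤ x → |f x| ≤ B) : EG f :=
  ⟨hc, B, 0, le_rfl, fun x hx => by simpa using h x hx⟩

end EG

/-- The weight `exp (-x²/2 + φ x)`. -/
noncomputable def wt (φ : ℝ → ℝ) (x : ℝ) : ℝ := Real.exp (-(x ^ 2) / 2 + φ x)

/-- A potential with bounded slope. -/
structure Pot (φ φ' : ℝ → ℝ) : Prop where
  deriv : ∀ x, HasDerivAt φ (φ' x) x
  cont : Continuous φ'
  zero : φ 0 = 0
  bdd : ∃ B, ∀ x, |φ' x| ≤ B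

lemma Pot.none : Pot (fun _ => 0) fun _ => 0 :=
  ⟨fun x => hasDerivAt_const x 0, continuous_const, rfl, 0, fun x => by simp⟩

lemma Pot.half {φ φ' : ℝ → ℝ} (hp : Pot φ φ') : Pot (fun x => φ x / 2) fun x => φ' x / 2 := by
  obtain ⟨B, hB⟩ := hp.bdd
  exact ⟨fun x => (hp.deriv x).div_const 2, hp.cont.div_const 2, by simp [hp.zero], B / 2,
    fun x => by rw [abs_div, abs_two]; linarith [hB x]⟩

variable {φ φ' f : ℝ → ℝ}

lemma Pot.continuous_pot (hp : Pot φ φ') : Continuous φ :=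
  continuous_iff_continuousAt.2 fun x => (hp.deriv x).continuousAt

lemma Pot.le_linear (hp : Pot φ φ') : ∃ B, 0 ≤ B ∧ ∀ x, 0 ≤ x → |φ x| ≤ B * x := by
  obtain ⟨B, hB⟩ := hp.bdd
  refine ⟨B, (abs_nonneg _).trans (hB 0), fun x hx => ?_⟩
  have := (convex_univ).norm_image_sub_le_of_norm_hasDerivWithin_le (𝕜 := ℝ)
    (fun y _ => (hp.deriv y).hasDerivWithinAt) (fun y _ => hB y) (mem_univ 0) (mem_univ x)
  simpa [hp.zero, abs_of_nonneg hx] using this

lemma Pot.eg_exp (hp : Pot φ φ') : EG fun x => Real.exp (φ x) := by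
  obtain ⟨B, hB, h⟩ := hp.le_linear
  exact ⟨hp.continuous_pot.rexp, 1, B, hB, fun x hx => by
    rw [abs_of_pos (Real.exp_pos _), one_mul]
    exact Real.exp_le_exp.2 ((abs_le.1 (h x hx)).2)⟩

lemma integrableOn_gauss (hf : EG f) :
    IntegrableOn (fun x => f x * Real.exp (-(x ^ 2) / 2)) (Ioi 0) := by
  obtain ⟨C, B, _, h⟩ := hf.bound
  have hg : IntegrableOn (fun x : ℝ => C * Real.exp (B ^ 2) * Real.exp (-(1 / 4) * x ^ 2)) (Ioi 0) :=
    ((integrable_exp_neg_mul_sq (by norm_num : (0 : ℝ) < 1 / 4)).const_mul _).integrableOn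
  refine hg.mono' ((hf.cont.mul (by fun_prop)).aestronglyMeasurable) ?_
  refine (ae_restrict_mem measurableSet_Ioi).mono fun x hx => ?_
  rw [Real.norm_eq_abs, abs_mul, abs_of_pos (Real.exp_pos _)]
  refine (mul_le_mul_of_nonneg_right (h x (le_of_lt hx)) (Real.exp_pos _).le).trans ?_
  have hC : 0 ≤ C := by simpa using (abs_nonneg _).trans (h 0 le_rfl)
  rw [mul_assoc, mul_assoc, ← Real.exp_add, ← Real.exp_add]
  exact mul_le_mul_of_nonneg_left (Real.exp_le_exp.2 (by nlinarith [sq_nonneg (x / 2 - B)])) hC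

lemma integrableOn_wt (hp : Pot φ φ') (hf : EG f) :
    IntegrableOn (fun x => f x * wt φ x) (Ioi 0) := by
  refine (integrableOn_gauss (hf.mul hp.eg_exp)).congr_fun (fun x _ => ?_) measurableSet_Ioi
  simp only [wt, Real.exp_add]; ring

/-- The integral of `f` against the weight on the half-line. -/
noncomputable def I (φ f : ℝ → ℝ) : ℝ := ∫ x in Ioi 0, f x * wt φ x

lemma I_add (hp : Pot φ φ') {g : ℝ → ℝ} (hf : EG f) (hg : EG g) :
    I φ (fun x => f x + g x) = I φ f + I φ g := by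
  simp only [I, add_mul]
  exact integral_add (integrableOn_wt hp hf) (integrableOn_wt hp hg)

lemma I_sub (hp : Pot φ φ') {g : ℝ → ℝ} (hf : EG f) (hg : EG g) :
    I φ (fun x => f x - g x) = I φ f - I φ g := by
  simp only [I, sub_mul]
  exact integral_sub (integrableOn_wt hp hf) (integrableOn_wt hp hg)

lemma I_smul (φ : ℝ → ℝ) (c : ℝ) (f : ℝ → ℝ) : I φ (fun x => c * f x) = c * I φ f := by
  simp only [I, mul_assoc]; exact integral_const_mul c _

lemma I_congr {g : ℝ → ℝ} (h : ∀ x, 0 < x → f x = g x) : I φ f = I φ g :=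
  setIntegral_congr_fun measurableSet_Ioi fun x hx => by simp only [h x hx]

lemma I_nonneg (h : ∀ x, 0 < x → 0 ≤ f x) : 0 ≤ I φ f :=
  setIntegral_nonneg measurableSet_Ioi fun x hx => mul_nonneg (h x hx) (Real.exp_pos _).le

lemma I_one_pos (hp : Pot φ φ') : 0 < I φ fun _ => 1 := by
  unfold I
  rw [setIntegral_pos_iff_support_of_nonneg_ae]
  · rw [Function.support_eq_univ (f := fun x : ℝ => (1 : ℝ) * wt φ x)
      fun x => (mul_pos one_pos (Real.exp_pos _)).ne']
    simp
  · exact ae_of_all _ fun x => (mul_pos one_pos (Real.exp_pos _)).le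
  · exact integrableOn_wt hp (EG.const 1)

/-- Integration by parts on the half-line. -/
theorem ibp (hp : Pot φ φ') {h h' : ℝ → ℝ} (hh : ∀ x, HasDerivAt h (h' x) x) (h0 : h 0 = 0)
    (hg : EG h) (hg' : EG h') :
    I φ (fun x => x * h x) = I φ h' + I φ fun x => h x * φ' x := by
  obtain ⟨B, hB⟩ := hp.bdd
  have hu : EG φ' := EG.of_bdd hp.cont fun x _ => hB x
  have hk : EG fun x => h' x + h x * φ' x - x * h x := (hg'.add (hg.mul hu)).sub (EG.id.mul hg)
  have hd : ∀ x, HasDerivAt (fun y => h y * wt φ y)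
      ((h' x + h x * φ' x - x * h x) * wt φ x) x := fun x => by
    have h1 : HasDerivAt (fun y : ℝ => -(y ^ 2) / 2) (-x) x := by
      simpa using ((hasDerivAt_pow 2 x).neg.div_const 2).congr_deriv (by ring : _ = -x)
    refine ((hh x).fun_mul (h1.fun_add (hp.deriv x)).exp).congr_deriv ?_
    simp only [wt]; ring
  have hi := integrableOn_wt hp hk
  have ht : Tendsto (fun y => h y * wt φ y) atTop (𝓝 0) :=
    tendsto_zero_of_hasDerivAt_of_integrableOn_Ioi (a := 0) (fun x _ => hd x) hi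
      (integrableOn_wt hp hg)
  have e : I φ (fun x => h' x + h x * φ' x - x * h x) = 0 := by
    have := integral_Ioi_of_hasDerivAt_of_tendsto' (a := 0) (fun x _ => hd x) hi ht
    simpa [I, h0] using this
  rw [I_sub hp (hg'.add (hg.mul hu)) (EG.id.mul hg), I_add hp hg' (hg.mul hu)] at e
  linarith

/-- A comparison of products of two integrals from a comparison at pairs of points. -/
theorem pair_le (hp : Pot φ φ') {A B C D : ℝ → ℝ} (hA : EG A) (hB : EG B) (hC : EG C) (hD : EG D)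
    (h : ∀ x y, 0 < x → x ≤ y → A x * B y + A y * B x ≤ C x * D y + C y * D x) :
    I φ A * I φ B ≤ I φ C * I φ D := by
  set ν := volume.restrict (Ioi (0 : ℝ))
  set e := wt φ
  have iA : Integrable (fun x => A x * e x) ν := integrableOn_wt hp hA
  have iB : Integrable (fun x => B x * e x) ν := integrableOn_wt hp hB
  have iC : Integrable (fun x => C x * e x) ν := integrableOn_wt hp hC
  have iD : Integrable (fun x => D x * e x) ν := integrableOn_wt hp hD
  have j0 : Integrable (fun p : ℝ × ℝ => (C p.1 * e p.1) * (D p.2 * e p.2) +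
      (D p.1 * e p.1) * (C p.2 * e p.2)) (ν.prod ν) := (iC.mul_prod iD).add (iD.mul_prod iC)
  have j1 : Integrable (fun p : ℝ × ℝ => (A p.1 * e p.1) * (B p.2 * e p.2) +
      (B p.1 * e p.1) * (A p.2 * e p.2)) (ν.prod ν) := (iA.mul_prod iB).add (iB.mul_prod iA)
  have key : ∫ p : ℝ × ℝ, ((A p.1 * e p.1) * (B p.2 * e p.2) +
      (B p.1 * e p.1) * (A p.2 * e p.2)) ∂ν.prod ν ≤ ∫ p : ℝ × ℝ, ((C p.1 * e p.1) * (D p.2 * e p.2) +
      (D p.1 * e p.1) * (C p.2 * e p.2)) ∂ν.prod ν := by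
    refine integral_mono_ae j1 j0 ?_
    rw [Measure.prod_restrict]
    refine (ae_restrict_mem (measurableSet_Ioi.prod measurableSet_Ioi)).mono fun p hp' => ?_
    obtain ⟨h1, h2⟩ : 0 < p.1 ∧ 0 < p.2 := hp'
    have hs : A p.1 * B p.2 + A p.2 * B p.1 ≤ C p.1 * D p.2 + C p.2 * D p.1 := by
      rcases le_total p.1 p.2 with hle | hle
      · exact h _ _ h1 hle
      · linarith [h _ _ h2 hle]
    have := mul_le_mul_of_nonneg_right hs
      (mul_nonneg (Real.exp_pos (-(p.1 ^ 2) / 2 + φ p.1)).le (Real.exp_pos (-(p.2 ^ 2) / 2 + φ p.2)).le)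
    simp only [e, wt]
    linarith
  rw [integral_add (iA.mul_prod iB) (iB.mul_prod iA), integral_add (iC.mul_prod iD) (iD.mul_prod iC),
    integral_prod_mul (fun x => A x * e x) (fun x => B x * e x),
    integral_prod_mul (fun x => B x * e x) (fun x => A x * e x),
    integral_prod_mul (fun x => C x * e x) (fun x => D x * e x),
    integral_prod_mul (fun x => D x * e x) (fun x => C x * e x)] at key
  change (∫ x, A x * e x ∂ν) * (∫ x, B x * e x ∂ν) ≤ (∫ x, C x * e x ∂ν) * ∫ x, D x * e x ∂ν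
  linarith

end Vale.Agent.P146.Gap
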